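import Vale.Agent.P225.ODE.Flow
import Vale.Agent.P225.Sched.ShapeFacts

/-!
# P225: the flow of the schedule shape
-/

namespace Vale.Agent.P225.Sched.Params

open Vale.Agent.P225.ODE

noncomputable section

variable {p : Params}

/-- The schedule shape has uniform bounds. -/
theorem Ok.shapeBounds (h : p.Ok) : ShapeBounds p.shape (1 / 20) (1 / 7) where
  drift t := by
    rw [shape_drift, abs_le]
    constructor <;> linarith [h.rate_nonneg t, h.rate_le t]
  χ_nonneg t := (h.chi_bounds t).1
  χ_le t := (h.chi_bounds t).2.trans log_87.2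
  β_le t := h.abs_comp_none t
  γ_le a t := (h.abs_comp_some a t).trans (by norm_num)

/-- The constants allowed for the flow of the schedule, independent of `N₀`. -/
structure FlowOk (C : FP.Consts) : Prop where
  K_ge : 3 ≤ C.K
  μ_le : C.μ ≤ 1 / 4
  J_ge : 30 ≤ C.J
  Λ_le : C.Λ + 1 ≤ 63 / 100 * C.J
  Γ_ge : 3 * (C.J : ℝ) ≤ C.Γ

theorem FlowOk.consts {C : FP.Consts} (hC : FlowOk C) :
    ConstsOk C (1 / 20) (1 / 7) (16 / 25) (22 / 25) 3 :=
  constsOk_standard hC.K_ge hC.μ_le hC.J_ge hC.Λ_le hC.Γ_ge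

/-- The flow of the schedule. -/
def flow (H : Harm) (h : p.Ok) {C : FP.Consts} (hC : FlowOk C) : FP.Flow H p.shape C :=
  flowOf H h.shapeBounds hC.consts

variable (H : Harm) (h : p.Ok)

/-- The degree `j` coefficients of the schedule. -/
def coeff (j : ℕ) : Coeff (V j) := Coeff.ofShape H p.shape j h.shapeBounds.drift

variable {C : FP.Consts} (hC : FlowOk C) (j : ℕ)

theorem flow_P : (flow H h hC).Pj j = (coeff H h j).P := rfl

theorem flow_Φ : (flow H h hC).Φ j = (coeff H h j).Phi := rfl

theorem flow_Φi : (flow H h hC).Φi j = (coeff H h j).Psi := rfl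

theorem flow_Ω : (flow H h hC).Ω j = (coeff H h j).Omega := rfl

end

end Vale.Agent.P225.Sched.Params
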