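import Vale.Agent.P225.Core

/-!
P225, the fixed point: interfaces.

* `Consts`: constants fixed before the schedule is chosen.
* `Flow`: what is used from the unperturbed mode equations
  (`Φ' = P Φ`, Riccati for `P`, `Z' = -(2+s+P) Z`, `Ω' = Ω (2+s+P) - Φ⁻¹`).
* `Plan`: slots, composites (consecutive blocks of slots), the designed values `X c` of the
  variable `Φ⁻¹ u + Ω (u' - P u)` before composite `c`, a norming path `N`, weights `κ` and right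
  inverses `R c` of the jump maps, with the smallness `ε`.
* `Goal`: amplitudes and solutions with the designed initial values and the growth of `N`.

The fixed point of the contraction is the pair (amplitudes, response relative to `N`).
-/

namespace Vale.Agent.P225.FP

open MeasureTheory
open scoped RealInnerProductSpace ContDiff

noncomputable section

/-- Constants fixed before the schedule. -/
structure Consts where
  /-- Degrees `1, …, J - 1` are controlled exactly. -/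
  J : ℕ
  /-- Multiplicative constant. -/
  K : ℝ
  one_le_K : 1 ≤ K
  /-- Largest rate of the designed solutions. -/
  Λ : ℝ
  Λ_nonneg : 0 ≤ Λ
  /-- A crude bound for the rates of the controlled degrees. -/
  Γ : ℝ
  Γ_nonneg : 0 ≤ Γ
  /-- Gain per degree. -/
  μ : ℝ
  μ_pos : 0 < μ
  /-- Weight of the degrees. -/
  W : ℝ
  one_le_W : 1 ≤ W

/-- What is used from the unperturbed equations. -/
structure Flow (H : Harm) (sh : Shape) (C : Consts) where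
  /-- The regular Riccati solution. -/
  Pj : (j : ℕ) → ℝ → Op j j
  /-- The regular fundamental solution. -/
  Φ : (j : ℕ) → ℝ → Op j j
  /-- Its inverse. -/
  Φi : (j : ℕ) → ℝ → Op j j
  /-- Fundamental solution for `u' - P u`. -/
  Z : (j : ℕ) → ℝ → Op j j
  /-- Its inverse. -/
  Zi : (j : ℕ) → ℝ → Op j j
  /-- The coefficient of `u' - P u` in the controlled variable. -/
  Ω : (j : ℕ) → ℝ → Op j j
  P_zero : ∀ t, Pj 0 t = 0
  deriv_P : ∀ j t, HasDerivAt (Pj j)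
    (sh.lam H j t - (Pj j t).comp (Pj j t) - (2 + sh.drift t) • Pj j t) t
  deriv_Φ : ∀ j t, HasDerivAt (Φ j) ((Pj j t).comp (Φ j t)) t
  deriv_Φi : ∀ j t, HasDerivAt (Φi j) (-(Φi j t).comp (Pj j t)) t
  Φ_Φi : ∀ j t, (Φ j t).comp (Φi j t) = ContinuousLinearMap.id ℝ (V j)
  Φi_Φ : ∀ j t, (Φi j t).comp (Φ j t) = ContinuousLinearMap.id ℝ (V j)
  deriv_Z : ∀ j t, HasDerivAt (Z j)
    (-((2 + sh.drift t) • Z j t + (Pj j t).comp (Z j t))) t
  Z_Zi : ∀ j t, (Z j t).comp (Zi j t) = ContinuousLinearMap.id ℝ (V j)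
  Zi_cont : ∀ j, Continuous (Zi j)
  deriv_Ω : ∀ j, 1 ≤ j → j < C.J → ∀ t, HasDerivAt (Ω j)
    ((2 + sh.drift t) • Ω j t + (Ω j t).comp (Pj j t) - Φi j t) t
  drift_le : ∀ t, |sh.drift t| ≤ C.K
  P_le : ∀ j t, ‖Pj j t‖ ≤ C.K * ((j : ℝ) + 1)
  Ω_le : ∀ j, 1 ≤ j → j < C.J → ∀ t, ‖(Φ j t).comp (Ω j t)‖ ≤ C.K
  flow_le : ∀ j, j < C.J → ∀ t s,
    ‖(Φ j t).comp (Φi j s)‖ ≤ C.K * Real.exp (C.Γ * |t - s|)
  future_le : ∀ j, C.J ≤ j → ∀ t s, t ≤ s →
    ‖(Φ j t).comp (Φi j s)‖ ≤ C.K * Real.exp (-(C.Λ + 1 + C.μ * j) * (s - t))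
  past_le : ∀ j t s, s ≤ t →
    ‖(Z j t).comp (Zi j s)‖ ≤ C.K * Real.exp (-(1 + C.μ * j) * (t - s))

/-- Euclidean spaces, for parameters and for norming. -/
abbrev EE (d : ℕ) := EuclideanSpace ℝ (Fin d)

variable (H : Harm) (sh : Shape) {E : Type} [NormedAddCommGroup E] [NormedSpace ℝ E]

/-- The forcing of one pulse on operator valued modes. -/
def pulseOp (p : Pulse) (s τ : ℝ) (j j' : ℕ) (u du : E →L[ℝ] V j) : E →L[ℝ] V j' :=
  match p.kind with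
  | some k =>
      (deriv p.prof τ + (2 + s) * p.prof τ) •
          ((H.mul p.deg p.vec j j').comp (H.EL j k)).comp u +
        p.prof τ • ((H.mul p.deg p.vec j j').comp (H.EL j k)).comp du +
        p.prof τ • ((H.EL j' k).comp (H.mul p.deg p.vec j j')).comp du
  | none => p.prof τ •
      ∑ k, ((H.EL j' k).comp ((H.mul p.deg p.vec j j').comp (H.EL j k))).comp u

/-- The total forcing on operator valued modes. -/
def forceOp {P : Pulses} (pos : ℕ → ℝ) (θ : ℕ → Fin P.n → ℝ)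
    (u du : (j : ℕ) → ℝ → E →L[ℝ] V j) (j' : ℕ) (t : ℝ) : E →L[ℝ] V j' :=
  ∑' n : ℕ, ∑ l, θ n l •
    ∑ j ∈ Finset.range (j' + (P.item l).deg + 1),
      pulseOp H (P.item l) (sh.drift t) (t - pos n) j j' (u j t) (du j t)

variable {H sh}

/-- The jump of the controlled variable produced on `[a, b]`, with the opposite sign. -/
def jump {C : Consts} (F : Flow H sh C) {P : Pulses} (pos : ℕ → ℝ) (θ : ℕ → Fin P.n → ℝ)
    (a b : ℝ) (u du : (j : ℕ) → ℝ → E →L[ℝ] V j) (j : ℕ) : E →L[ℝ] V j :=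
  ∫ t in a..b, (F.Ω j t).comp (forceOp H sh pos θ u du j t)

/-- Modes whose controlled variable has the constant value `X`. -/
def frozen {C : Consts} (F : Flow H sh C) (X : (j : ℕ) → E →L[ℝ] V j) (j : ℕ) (t : ℝ) :
    E →L[ℝ] V j :=
  (F.Φ j t).comp (X j)

/-- Their derivatives. -/
def frozenD {C : Consts} (F : Flow H sh C) (X : (j : ℕ) → E →L[ℝ] V j) (j : ℕ) (t : ℝ) :
    E →L[ℝ] V j :=
  (F.Pj j t).comp ((F.Φ j t).comp (X j))

/-- Slots, composites, designed values and right inverses. -/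
structure Plan {C : Consts} (F : Flow H sh C) (P : Pulses) (d d' : ℕ) (ε : ℝ) where
  /-- Slot start times. -/
  pos : ℕ → ℝ
  pos_start : 1 ≤ pos 0
  pos_gap : ∀ n, pos n + 1 ≤ pos (n + 1)
  /-- Composite `c` consists of the slots `first c, …, first (c+1) - 1`. -/
  first : ℕ → ℕ
  first_zero : first 0 = 0
  first_mono : StrictMono first
  /-- Start of a composite. -/
  a : ℕ → ℝ
  /-- End of a composite. -/
  b : ℕ → ℝ
  slot_mem : ∀ c n, first c ≤ n → n < first (c + 1) → a c ≤ pos n ∧ pos n + 1 ≤ b c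
  order : ∀ c, b c ≤ a (c + 1)
  /-- Designed values of the controlled variable before composite `c`. -/
  X : ℕ → (j : ℕ) → EE d →L[ℝ] V j
  X_off : ∀ c j, j = 0 ∨ C.J ≤ j → X c j = 0
  /-- The norming path: solutions are measured against `‖N t x‖`. -/
  N : ℝ → EE d →L[ℝ] EE d'
  N_cont : Continuous N
  N_inj : ∀ t x, N t x = 0 → x = 0
  N_past : ∀ t s, s ≤ t → ∀ x, ‖N s x‖ ≤ C.K * Real.exp (-(1 / 2) * (t - s)) * ‖N t x‖
  N_future : ∀ t s, t ≤ s → ∀ x, ‖N s x‖ ≤ C.K * Real.exp (C.Λ * (s - t)) * ‖N t x‖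
  /-- The weight of smallness. -/
  κ : ℝ → ℝ
  κ_cont : Continuous κ
  κ_nonneg : ∀ t, 0 ≤ κ t
  κ_lip : ∀ s t, |κ s - κ t| ≤ |s - t| / 4
  X_le : ∀ c j, j < C.J → ∀ t, t ≤ b c → (∀ c', c = c' + 1 → b c' ≤ t) →
    ∀ x, ‖F.Φ j t (X c j x)‖ ≤ C.K * ‖N t x‖
  dX_le : ∀ c j, j < C.J → ∀ t ∈ Set.Icc (a c) (b c),
    ∀ x, ‖F.Φ j t ((X (c + 1) j - X c j) x)‖ ≤ ε * Real.exp (-(κ t / 2)) * ‖N t x‖
  /-- Right inverses of the jump maps. -/
  R : ℕ → ((j : ℕ) → EE d →L[ℝ] V j) →ₗ[ℝ] (ℕ → Fin P.n → ℝ)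
  /-- Their norms. -/
  ρ : ℕ → ℝ
  ρ_nonneg : ∀ c, 0 ≤ ρ c
  R_supp : ∀ c Y n, (n < first c ∨ first (c + 1) ≤ n) → R c Y n = 0
  R_right : ∀ c Y j, 1 ≤ j → j < C.J →
    jump F pos (R c Y) (a c) (b c) (frozen F (X c)) (frozenD F (X c)) j = Y j
  R_le : ∀ c Y (r : ℕ → ℝ), (∀ j, j < C.J → 0 ≤ r j) →
    (∀ j, j < C.J → ∀ x, ‖F.Φ j (a c) (Y j x)‖ ≤ r j * ‖N (a c) x‖) →
    ∀ n l, |R c Y n l| ≤ ρ c * ∑ j ∈ Finset.range C.J, r j
  ρ_small : ∀ c, ρ c *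
    Real.exp ((4 * C.Γ + 4 * C.Λ + 2) * (b c - a c)) * Real.exp (-(κ (a c) / 2)) ≤ ε
  len_small : ∀ c, (4 * C.Γ + 4 * C.Λ + 2) * (b c - a c) ≤ κ (a c) / 2
  target_small : ∀ c n l, |R c (fun j => X c j - X (c + 1) j) n l| ≤
    ε * Real.exp (-κ (a c))

/-- The statement proved by the contraction. -/
def Goal : Prop :=
  ∀ (H : Harm) (P : Pulses) (C : Consts), ∃ ε₀ > (0 : ℝ), ∃ M : ℝ, 0 ≤ M ∧
    ∀ (sh : Shape) (F : Flow H sh C) (d d' : ℕ) (ε : ℝ) (pl : Plan F P d d' ε),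
      0 ≤ ε → ε ≤ ε₀ →
      ∃ A : Amps P, A.pos = pl.pos ∧
        (∀ n l, |A.θ n l| ≤ M * ε * Real.exp (-(pl.κ (pl.pos n) / 2))) ∧
        ∀ x : EE d, ∃ u du : (j : ℕ) → ℝ → V j,
          IsModeSolution H sh A u du ∧
          (∀ j t, C.W ^ j * (‖u j t‖ + ‖du j t‖) ≤ M * ‖pl.N t x‖) ∧
          (∀ j, ∃ v : V j, ∀ t ≤ pl.a 0, u j t = F.Φ j t v ∧ du j t = F.Pj j t (F.Φ j t v)) ∧
          ∀ j, 1 ≤ j → j < C.J → ∀ t ≤ pl.a 0, u j t = F.Φ j t (pl.X 0 j x)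

end

end Vale.Agent.P225.FP
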