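import Vale.Agent.P225.FP.Main

/-!
P225, fixed point: the fixed point solves the mode equations with the designed data.
-/

namespace Vale.Agent.P225.FP

open MeasureTheory intervalIntegral Filter Topology
open scoped RealInnerProductSpace ContDiff ENNReal BoundedContinuousFunction

noncomputable section

variable {H : Harm} {sh : Shape} {C : Consts} {F : Flow H sh C} {P : Pulses} {d d' : ℕ} {ε : ℝ}
  {pl : Plan F P d d' ε} {Kf : ℝ}

/-- A fixed point of the contraction, unfolded: amplitudes and modes. -/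
structure Sol (pl : Plan F P d d' ε) (Kf : ℝ) where
  /-- Amplitudes. -/
  θ : ℕ → Fin P.n → ℝ
  /-- Modes. -/
  U : (j : ℕ) → ℝ → EE d →L[ℝ] V j
  /-- Derivatives of the modes. -/
  D : (j : ℕ) → ℝ → EE d →L[ℝ] V j
  bound : ForceBound H P C Kf
  nonneg : 0 ≤ ε
  amp_le : pl.AmpLe (2 * ε) θ
  mode_le : pl.ModeLe (refConst C + 2) U D
  eq_U : ∀ j t, U j t = pl.refU j t + pl.uv θ U D j t
  eq_D : ∀ j t, D j t = pl.refD j t + pl.dv θ U D j t
  jump_eq : ∀ c j, 1 ≤ j → j < C.J →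
    jump F pl.pos θ (pl.a c) (pl.b c) U D j = pl.X c j - pl.X (c + 1) j

namespace Small

variable (hp : Small pl Kf)

include hp

lemma vU_eq_uv {z : AmpSpace P × ModeSpace d'}
    (hz : ∀ j t, z.2 j t = (newU (pl := pl) (Kf := Kf) z j t, newD (pl := pl) (Kf := Kf) z j t))
    (j : ℕ) (t : ℝ) :
    pl.vU z.2 j t = pl.uv (pl.amp (scale C Kf) z.1) (pl.totU z.2) (pl.totD z.2) j t ∧
      pl.vD z.2 j t = pl.dv (pl.amp (scale C Kf) z.1) (pl.totU z.2) (pl.totD z.2) j t := by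
  have hW := pl.W_pos
  have hL := hp.L_pos
  have hl : ∀ y, leftInv (pl.N t) (pl.N t y) = y := fun y =>
    congrArg (fun T : EE d →L[ℝ] EE d => T y) (leftInv_comp (pl.N_inj t))
  have he : Real.exp (-(pl.κ t / 2)) * Real.exp (pl.κ t / 2) = 1 := by
    rw [← Real.exp_add, neg_add_cancel, Real.exp_zero]
  unfold Plan.vU Plan.vD
  rw [hz j t]
  constructor <;> ext1 x <;>
    simp only [newU, newD, smul_apply, ContinuousLinearMap.comp_apply, hl, smul_smul]
  · rw [show (C.W ^ j)⁻¹ * ((j : ℝ) + 1)⁻¹ * Real.exp (-(pl.κ t / 2)) *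
      (C.W ^ j * ((j : ℝ) + 1) * Real.exp (pl.κ t / 2)) = 1 by field_simp; linarith [he],
      one_smul]
  · rw [show (C.W ^ j)⁻¹ * Real.exp (-(pl.κ t / 2)) * (C.W ^ j * Real.exp (pl.κ t / 2)) = 1 by
      field_simp; linarith [he], one_smul]

lemma amp_eq {z : AmpSpace P × ModeSpace d'}
    (hz : ∀ n, z.1 n = newAmp (pl := pl) (Kf := Kf) z n) (c : ℕ) :
    pl.mask c (pl.amp (scale C Kf) z.1) = pl.R c (fun j => (pl.X c j - pl.X (c + 1) j) -
      pl.devJump (scale C Kf) z.1 z.2 c j) := by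
  have hL := hp.L_pos
  funext n l
  by_cases h : pl.idx n = c
  · subst h
    simp only [Plan.mask, if_pos, Plan.amp, hz n, newAmp, Pi.smul_apply, smul_eq_mul]
    have he : Real.exp (-pl.κ (pl.a (pl.idx n))) * Real.exp (pl.κ (pl.a (pl.idx n))) = 1 := by
      rw [← Real.exp_add, neg_add_cancel, Real.exp_zero]
    field_simp
    linear_combination (pl.R (pl.idx n) (fun j => (pl.X (pl.idx n) j - pl.X (pl.idx n + 1) j) -
      pl.devJump (scale C Kf) z.1 z.2 (pl.idx n) j) n l) * he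
  · rw [Plan.mask, if_neg h, pl.R_supp c _ n]
    by_contra hn
    push Not at hn
    exact h (pl.idx_eq hn.1 hn.2)

omit hp in
lemma jump_mask (θ : ℕ → Fin P.n → ℝ) {U D : (j : ℕ) → ℝ → EE d →L[ℝ] V j} (c j : ℕ) :
    jump F pl.pos (pl.mask c θ) (pl.a c) (pl.b c) U D j =
      jump F pl.pos θ (pl.a c) (pl.b c) U D j := by
  refine integral_congr fun s hs => ?_
  rw [Set.uIcc_of_le (pl.a_lt_b c).le] at hs
  simp only [pl.forceOp_mask_on θ U D hs j]

lemma jump_eq {z : AmpSpace P × ModeSpace d'}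
    (hz : ∀ n, z.1 n = newAmp (pl := pl) (Kf := Kf) z n) (c j : ℕ) (hj1 : 1 ≤ j) (hj2 : j < C.J) :
    jump F pl.pos (pl.amp (scale C Kf) z.1) (pl.a c) (pl.b c) (pl.totU z.2) (pl.totD z.2) j =
      pl.X c j - pl.X (c + 1) j := by
  have h1 := pl.modeLe_tot hp.le_one z.2
  have e := jump_sub (pl := pl) hj1 hj2 (θ₁ := pl.amp (scale C Kf) z.1)
    (θ₂ := pl.amp (scale C Kf) z.1) (θ₃ := pl.amp (scale C Kf) z.1)
    (U₁ := pl.totU z.2 - frozen F (pl.X c)) (D₁ := pl.totD z.2 - frozenD F (pl.X c))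
    h1.cont_u h1.cont_du (fun i => pl.continuous_frozen c i) (fun i => pl.continuous_frozenD c i)
    (fun t => forceOp_sub_mode pl.pos_start pl.pos_gap _ _ _ _ _ j t) (pl.a c) (pl.b c)
  have hR := pl.R_right c (fun i => (pl.X c i - pl.X (c + 1) i) -
    pl.devJump (scale C Kf) z.1 z.2 c i) j hj1 hj2
  rw [← hp.amp_eq hz c, jump_mask] at hR
  simp only [Plan.devJump, if_pos (And.intro hj1 hj2), e] at hR
  rw [← sub_eq_zero] at hR ⊢
  rw [← hR]
  abel

lemma exists_sol : Nonempty (Sol pl Kf) := by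
  obtain ⟨z, hz, hz1, hz2⟩ := hp.exists_fixed_state
  have hL := hp.L_pos
  have h1 : ‖z.1‖ / scale C Kf ≤ 2 * ε := by
    rw [div_le_iff₀ hL]; linarith [norm_fst_le z]
  have h2 : ‖z.2‖ ≤ 1 := (norm_snd_le z).trans (hz.trans hp.radius)
  have hm := pl.modeLe_tot hp.le_one z.2
  exact ⟨⟨pl.amp (scale C Kf) z.1, pl.totU z.2, pl.totD z.2, hp.bound, hp.nonneg,
    fun n l => (pl.ampLe_amp hL z.1 n l).trans
      (mul_le_mul_of_nonneg_right h1 (Real.exp_pos _).le),
    ⟨hm.cont_u, hm.cont_du, fun j t x => (hm.le j t x).trans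
      (mul_le_mul_of_nonneg_right (by linarith) (norm_nonneg _))⟩,
    fun j t => by rw [← (hp.vU_eq_uv hz2 j t).1]; rfl,
    fun j t => by rw [← (hp.vU_eq_uv hz2 j t).2]; rfl,
    hp.jump_eq hz1⟩⟩

end Small

namespace Sol

variable (S : Sol pl Kf)

/-- The stable variable. -/
abbrev y (j : ℕ) (t : ℝ) : EE d →L[ℝ] V j := pl.yv S.θ S.U S.D j t

lemma D_eq (j : ℕ) (t : ℝ) : S.D j t = (F.Pj j t).comp (S.U j t) + S.y j t := by
  rw [S.eq_D, S.eq_U, ContinuousLinearMap.comp_add, Plan.refD, Plan.dv, add_assoc]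

lemma deriv_y (j : ℕ) (t : ℝ) : HasDerivAt (S.y j)
    (-((2 + sh.drift t) • S.y j t + (F.Pj j t).comp (S.y j t)) -
      forceOp H sh pl.pos S.θ S.U S.D j t) t :=
  hasDerivAt_yOp (continuous_forceOp pl.pos_start pl.pos_gap S.θ S.mode_le.cont_u
    S.mode_le.cont_du j) t

lemma continuous_y (j : ℕ) : Continuous (S.y j) :=
  pl.continuous_yv S.mode_le.cont_u S.mode_le.cont_du j

lemma zero_lt (_S : Sol pl Kf) : 0 ≤ refConst C + 2 := by
  have := pl.refConst_nonneg; linarith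

lemma integrable_high {j : ℕ} (hj : C.J ≤ j) (t : ℝ) :
    IntegrableOn (fun r => (F.Φi j r).comp (S.y j r)) (Set.Ioi t) :=
  pl.uTwo_integrable S.bound (mul_nonneg zero_le_two S.nonneg) S.zero_lt S.amp_le S.mode_le hj t

lemma U_zero (t : ℝ) : S.U 0 t = ∫ r in (0 : ℝ)..t, S.y 0 r := by
  rw [S.eq_U, Plan.refU, pl.xdes_off (Or.inl rfl), ContinuousLinearMap.comp_zero]
  exact (zero_add _).trans (if_pos rfl)

lemma U_high {j : ℕ} (hj0 : j ≠ 0) (hj : C.J ≤ j) (t : ℝ) :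
    S.U j t = uTwo F j (S.y j) t := by
  rw [S.eq_U, Plan.refU, pl.xdes_off (Or.inr hj), ContinuousLinearMap.comp_zero, zero_add,
    Plan.uv, if_neg hj0, if_neg (not_lt.2 hj)]

/-- The controlled variable. -/
def xh (j : ℕ) (t : ℝ) : EE d →L[ℝ] V j := pl.xdes j t + pl.ecor S.θ S.U S.D j t

lemma U_mid {j : ℕ} (hj1 : 1 ≤ j) (hj2 : j < C.J) (t : ℝ) :
    S.U j t = (F.Φ j t).comp (S.xh j t - (F.Ω j t).comp (S.y j t)) := by
  rw [S.eq_U, Plan.refU, Plan.uv, if_neg (by omega), if_pos hj2, xh]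
  ext1 x
  simp
  abel

lemma xh_eq {j : ℕ} (hj1 : 1 ≤ j) (hj2 : j < C.J) {t : ℝ} {M : ℕ}
    (hM : ∀ c, M ≤ c → t ≤ pl.a c) :
    S.xh j t = pl.X 0 j - ∑ c ∈ Finset.range M, pl.part S.θ S.U S.D c j t := by
  rw [xh, pl.xdes_eq_finset hM, pl.ecor_eq_finset hj1 hj2 S.mode_le.cont_u S.mode_le.cont_du hM,
    add_assoc, ← Finset.sum_add_distrib, sub_eq_add_neg (pl.X 0 j), ← Finset.sum_neg_distrib]
  congr 1
  refine Finset.sum_congr rfl fun c _ => ?_
  rw [pl.part_b hj1 hj2 S.mode_le.cont_u S.mode_le.cont_du, S.jump_eq c j hj1 hj2]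
  ext1 x
  simp [Plan.dX, smul_sub]
  abel

lemma sum_force (j : ℕ) {t : ℝ} {M : ℕ} (hM : ∀ c, M ≤ c → t ≤ pl.a c) :
    ∑ c ∈ Finset.range M, forceOp H sh pl.pos (pl.mask c S.θ) S.U S.D j t =
      forceOp H sh pl.pos S.θ S.U S.D j t := by
  by_cases hn : ∃ n, t - pl.pos n ∈ Set.Ioo (0 : ℝ) 1
  · obtain ⟨n, hn⟩ := hn
    simp only [forceOp_slot pl.pos_gap hn]
    rw [Finset.sum_eq_single_of_mem (pl.idx n)]
    · simp [slotOp, pl.mask_slot rfl]
    · refine Finset.mem_range.2 (not_le.1 fun h => ?_)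
      linarith [hM _ h, (pl.slot_idx n).1, hn.1]
    · intro c _ hc
      exact slotOp_eq_zero (Or.inr (if_neg (Ne.symm hc)))
  · push Not at hn
    rw [forceOp_eq_zero fun n => Or.inl (hn n)]
    exact Finset.sum_eq_zero fun c _ => forceOp_eq_zero fun n => Or.inl (hn n)

lemma deriv_xh {j : ℕ} (hj1 : 1 ≤ j) (hj2 : j < C.J) (t : ℝ) :
    HasDerivAt (S.xh j) (-(F.Ω j t).comp (forceOp H sh pl.pos S.θ S.U S.D j t)) t := by
  obtain ⟨M, hM⟩ := pl.exists_lt_a (t + 1)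
  have hMt : ∀ c, M ≤ c → t ≤ pl.a c := fun c hc => by linarith [hM c hc]
  have he : S.xh j =ᶠ[𝓝 t]
      fun r => pl.X 0 j - ∑ c ∈ Finset.range M, pl.part S.θ S.U S.D c j r :=
    (eventually_lt_nhds (lt_add_one t)).mono fun r hr =>
      S.xh_eq hj1 hj2 fun c hc => (hr.trans (hM c hc)).le
  refine HasDerivAt.congr_of_eventuallyEq ?_ he
  refine ((HasDerivAt.fun_sum fun c _ => hasDerivAt_integral
    (pl.continuous_Ω_force hj1 hj2 (pl.mask c S.θ) S.mode_le.cont_u S.mode_le.cont_du) 0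
      t).const_sub _).congr_deriv ?_
  rw [← S.sum_force j hMt]
  ext1 x
  simp [map_sum, sum_apply]

lemma deriv_U (j : ℕ) (t : ℝ) : HasDerivAt (S.U j) (S.D j t) t := by
  rw [S.D_eq]
  by_cases hj0 : j = 0
  · subst hj0
    rw [F.P_zero, ContinuousLinearMap.zero_comp, funext S.U_zero]
    exact (hasDerivAt_integral (S.continuous_y 0) 0 t).congr_deriv (zero_add _).symm
  by_cases hj2 : j < C.J
  · have hj1 : 1 ≤ j := Nat.one_le_iff_ne_zero.2 hj0
    rw [funext (S.U_mid hj1 hj2)]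
    refine ((F.deriv_Φ j t).clm_comp ((S.deriv_xh hj1 hj2 t).sub
      ((F.deriv_Ω j hj1 hj2 t).clm_comp (S.deriv_y j t)))).congr_deriv ?_
    ext1 x
    simp [Φ_Φi_apply, map_add]
    abel
  · rw [funext (S.U_high hj0 (not_lt.1 hj2))]
    exact hasDerivAt_uTwo (S.continuous_y j) (S.integrable_high (not_lt.1 hj2)) t

lemma deriv_D (j : ℕ) (t : ℝ) : HasDerivAt (S.D j)
    (-(2 + sh.drift t) • S.D j t + (sh.lam H j t).comp (S.U j t) -
      forceOp H sh pl.pos S.θ S.U S.D j t) t := by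
  have hD : S.D j = fun r => (F.Pj j r).comp (S.U j r) + S.y j r := funext (S.D_eq j)
  rw [hD]
  refine (((F.deriv_P j t).clm_comp (S.deriv_U j t)).add (S.deriv_y j t)).congr_deriv ?_
  ext1 x
  simp [S.D_eq, smul_add, add_smul]
  module

/-- The perturbations. -/
def amps : Amps P := ⟨pl.pos, pl.pos_start, pl.pos_gap, S.θ⟩

lemma isModeSolution (x : EE d) :
    IsModeSolution H sh S.amps (fun j t => S.U j t x) (fun j t => S.D j t x) := by
  refine ⟨fun j t => ?_, fun j t => ?_⟩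
  · simpa using (S.deriv_U j t).clm_apply (hasDerivAt_const t x)
  · rw [← forceOp_apply pl.pos_start pl.pos_gap S.amps rfl S.U S.D j t x]
    have h := (S.deriv_D j t).clm_apply (hasDerivAt_const t x)
    simpa [amps] using h

lemma theta_le (n : ℕ) (l : Fin P.n) :
    |S.θ n l| ≤ (refConst C + 2) * ε * Real.exp (-(pl.κ (pl.pos n) / 2)) := by
  have := pl.refConst_nonneg
  have := S.nonneg
  obtain ⟨h1, h2⟩ := pl.slot_idx n
  refine (S.amp_le n l).trans (mul_le_mul ?_ (pl.exp_window' ⟨h1, by linarith⟩)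
    (Real.exp_pos _).le (by positivity))
  nlinarith

lemma mode_bound (x : EE d) (j : ℕ) (t : ℝ) :
    C.W ^ j * (‖S.U j t x‖ + ‖S.D j t x‖) ≤ (refConst C + 2) * ‖pl.N t x‖ := by
  have := pl.W_pos
  refine le_trans (mul_le_mul_of_nonneg_left (add_le_add_left ?_ _) (by positivity))
    (S.mode_le.le j t x)
  exact le_mul_of_one_le_left (norm_nonneg _) (by linarith [(j.cast_nonneg : (0 : ℝ) ≤ j)])

lemma y_before (j : ℕ) {t : ℝ} (ht : t ≤ pl.a 0) : S.y j t = 0 :=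
  pl.yv_zero S.θ S.U S.D j (Or.inr ht)

lemma D_before (j : ℕ) {t : ℝ} (ht : t ≤ pl.a 0) : S.D j t = (F.Pj j t).comp (S.U j t) := by
  rw [S.D_eq, S.y_before j ht, add_zero]

lemma U_before_mid {j : ℕ} (hj1 : 1 ≤ j) (hj2 : j < C.J) {t : ℝ} (ht : t ≤ pl.a 0) :
    S.U j t = (F.Φ j t).comp (pl.X 0 j) := by
  rw [S.U_mid hj1 hj2, S.xh_eq hj1 hj2 (M := 0) fun c _ => ht.trans (pl.a_mono (Nat.zero_le c)),
    S.y_before j ht]
  simp

lemma exists_before (x : EE d) (j : ℕ) : ∃ v : V j, ∀ t ≤ pl.a 0,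
    S.U j t x = F.Φ j t v ∧ S.D j t x = F.Pj j t (F.Φ j t v) := by
  suffices ∃ W : EE d →L[ℝ] V j, ∀ t ≤ pl.a 0, S.U j t = (F.Φ j t).comp W by
    obtain ⟨W, hW⟩ := this
    exact ⟨W x, fun t ht => ⟨by rw [hW t ht]; rfl, by rw [S.D_before j ht, hW t ht]; rfl⟩⟩
  by_cases hj0 : j = 0
  · subst hj0
    refine ⟨0, fun t ht => ?_⟩
    rw [S.U_zero, ContinuousLinearMap.comp_zero,
      integral_congr (g := fun _ => (0 : EE d →L[ℝ] V 0)) fun r hr => ?_,
      intervalIntegral.integral_zero]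
    rcases le_total t 0 with h | h
    · rw [Set.uIcc_of_ge h] at hr
      exact pl.yv_zero S.θ S.U S.D 0 (Or.inl (hr.2.trans zero_le_one))
    · rw [Set.uIcc_of_le h] at hr
      exact S.y_before 0 (hr.2.trans ht)
  by_cases hj2 : j < C.J
  · exact ⟨pl.X 0 j, fun t ht => S.U_before_mid (Nat.one_le_iff_ne_zero.2 hj0) hj2 ht⟩
  · have hJ : C.J ≤ j := not_lt.1 hj2
    refine ⟨-∫ r in Set.Ioi (pl.a 0), (F.Φi j r).comp (S.y j r), fun t ht => ?_⟩
    have h := integral_interval_add_Ioi (S.integrable_high hJ t) (S.integrable_high hJ (pl.a 0))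
    rw [integral_congr (g := fun _ => (0 : EE d →L[ℝ] V j)) fun r hr => ?_,
      intervalIntegral.integral_zero, zero_add] at h
    · rw [S.U_high hj0 hJ, uTwo, ← h, ContinuousLinearMap.comp_neg]
    · rw [Set.uIcc_of_le ht] at hr
      simp [S.y_before j hr.2]

end Sol

theorem goal_holds : Goal := by
  intro H P C
  obtain ⟨Kf, hKf⟩ := exists_forceBound H P C
  have hK : 0 ≤ C.K := zero_le_one.trans C.one_le_K
  have hW : 0 < C.W := zero_lt_one.trans_le C.one_le_W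
  have hμ := C.μ_pos
  have hK0 := hKf.1
  have hR : 0 ≤ refConst C := by unfold refConst; positivity
  have hQ : 0 ≤ respConst C Kf := by unfold respConst uConst yConst; positivity
  have hJ : 0 ≤ jumpConst C Kf := by unfold jumpConst; positivity
  have hL : 1 ≤ scale C Kf := by
    have : 0 ≤ 8 * respConst C Kf * (refConst C + 2) := by positivity
    unfold scale; linarith
  set B := 2 * scale C Kf + 8 * (jumpConst C Kf * (refConst C + 4)) with hB
  have hB0 : 0 < B := by positivity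
  refine ⟨1 / B, by positivity, refConst C + 2, by positivity,
    fun sh F d d' ε pl hε hle => ?_⟩
  have hεB : ε * B ≤ 1 := by rwa [le_div_iff₀ hB0] at hle
  rw [hB] at hεB
  have h3 : 0 ≤ ε * (jumpConst C Kf * (refConst C + 4)) := by positivity
  have h4 : ε ≤ ε * scale C Kf := le_mul_of_one_le_right hε hL
  have hs : Small pl Kf := ⟨hKf, hε, by nlinarith, by nlinarith, by nlinarith⟩
  obtain ⟨S⟩ := hs.exists_sol
  refine ⟨S.amps, rfl, S.theta_le, fun x => ⟨fun j t => S.U j t x, fun j t => S.D j t x,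
    S.isModeSolution x, S.mode_bound x, S.exists_before x, fun j hj1 hj2 t ht => ?_⟩⟩
  show S.U j t x = _
  rw [S.U_before_mid hj1 hj2 ht]
  rfl

end

end Vale.Agent.P225.FP
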