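import Vale.Agent.P225.FP.Response

/-!
P225, fixed point: bounds and linearity of the response.

If the amplitudes of composite `c` are at most `s · e^{-κ(a c)}` and the modes at most `B ‖N‖`
(degree `j` weighted by `W^j`), the response is at most `const · s · B · e^{-κ/2} ‖N‖`.
-/

namespace Vale.Agent.P225.FP

open MeasureTheory intervalIntegral
open scoped RealInnerProductSpace ContDiff

noncomputable section

/-- `Kf` bounds the forcing of the pulses. -/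
def ForceBound (H : Harm) (P : Pulses) (C : Consts) (Kf : ℝ) : Prop :=
  0 ≤ Kf ∧ ∀ (d : ℕ) (sh : Shape) (pos : ℕ → ℝ) (θ : ℕ → Fin P.n → ℝ)
    (u du : (j : ℕ) → ℝ → EE d →L[ℝ] V j) (j' : ℕ) (t : ℝ) (x : EE d) (T A : ℝ),
    (∀ n, pos n + 1 ≤ pos (n + 1)) → |sh.drift t| ≤ C.K → 0 ≤ T → 0 ≤ A →
    (∀ n l, t - pos n ∈ Set.Ioo (0 : ℝ) 1 → |θ n l| ≤ T) →
    (∀ j : ℕ, C.W ^ j * (((j : ℝ) + 1) * ‖u j t x‖ + ‖du j t x‖) ≤ A) →
    C.W ^ j' * ‖forceOp H sh pos θ u du j' t x‖ ≤ Kf * ((j' : ℝ) + 1) * T * A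

lemma exists_forceBound (H : Harm) (P : Pulses) (C : Consts) : ∃ Kf, ForceBound H P C Kf := by
  obtain ⟨B, hB0, hB⟩ := exists_force_bound H P C.K C.W C.one_le_W
  exact ⟨B, hB0, fun d => hB (E := EE d)⟩

/-- Gain of `u' - P u`. -/
def yConst (C : Consts) (Kf : ℝ) : ℝ := C.K * C.K * Kf * (1 + 1 / C.μ)

/-- Gain of `u`. -/
def uConst (C : Consts) (Kf : ℝ) : ℝ :=
  C.W ^ C.J * (C.J : ℝ) * (2 * (C.K * C.K * C.K * Kf * (C.J : ℝ)) + C.K * yConst C Kf) +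
    4 * C.K * yConst C Kf + (2 + 1 / C.μ) * (C.K * C.K * yConst C Kf)

/-- Gain of the response. -/
def respConst (C : Consts) (Kf : ℝ) : ℝ := uConst C Kf + (C.K * uConst C Kf + yConst C Kf)

variable {H : Harm} {sh : Shape} {C : Consts} {F : Flow H sh C} {P : Pulses} {d d' : ℕ} {ε : ℝ}
  (pl : Plan F P d d' ε) {Kf : ℝ}

namespace Plan

/-- The amplitudes are at most `s e^{-κ(a c)}` on composite `c`. -/
def AmpLe (s : ℝ) (θ : ℕ → Fin P.n → ℝ) : Prop :=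
  ∀ n l, |θ n l| ≤ s * Real.exp (-pl.κ (pl.a (pl.idx n)))

/-- Continuous modes bounded by `B ‖N‖`. -/
structure ModeLe (B : ℝ) (U D : (j : ℕ) → ℝ → EE d →L[ℝ] V j) : Prop where
  cont_u : ∀ j, Continuous (U j)
  cont_du : ∀ j, Continuous (D j)
  le : ∀ (j : ℕ) t x, C.W ^ j * (((j : ℝ) + 1) * ‖U j t x‖ + ‖D j t x‖) ≤ B * ‖pl.N t x‖

lemma K_nonneg (_pl : Plan F P d d' ε) : 0 ≤ C.K := zero_le_one.trans C.one_le_K

lemma W_pos (_pl : Plan F P d d' ε) : 0 < C.W := zero_lt_one.trans_le C.one_le_W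

lemma len_one (c : ℕ) : 1 ≤ pl.b c - pl.a c := by linarith [pl.a_add_one_le_b c]

lemma κ_window {c : ℕ} {s : ℝ} (hs : s ∈ Set.Icc (pl.a c) (pl.b c)) :
    |pl.κ s - pl.κ (pl.a c)| ≤ (pl.b c - pl.a c) / 4 := by
  refine (pl.κ_lip s (pl.a c)).trans ?_
  rw [abs_of_nonneg (sub_nonneg.2 hs.1)]
  linarith [hs.2]

lemma exp_window {c : ℕ} {s : ℝ} (hs : s ∈ Set.Icc (pl.a c) (pl.b c)) :
    Real.exp (-pl.κ (pl.a c)) * Real.exp ((C.Γ + C.Λ + 1) * (pl.b c - pl.a c)) ≤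
      Real.exp (-(pl.κ s / 2)) := by
  rw [← Real.exp_add, Real.exp_le_exp]
  have h1 := (abs_le.1 (pl.κ_window hs)).2
  have h2 := pl.len_small c
  have h3 := pl.len_one c
  nlinarith [C.Γ_nonneg, C.Λ_nonneg]

lemma exp_window' {c : ℕ} {s : ℝ} (hs : s ∈ Set.Icc (pl.a c) (pl.b c)) :
    Real.exp (-pl.κ (pl.a c)) ≤ Real.exp (-(pl.κ s / 2)) := by
  refine le_trans (le_mul_of_one_le_right (Real.exp_pos _).le (Real.one_le_exp ?_))
    (pl.exp_window hs)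
  nlinarith [C.Γ_nonneg, C.Λ_nonneg, pl.len_one c]

lemma force_le (hKf : ForceBound H P C Kf) {θ : ℕ → Fin P.n → ℝ} {s : ℝ} (hs : 0 ≤ s)
    (hθ : pl.AmpLe s θ) {U D : (j : ℕ) → ℝ → EE d →L[ℝ] V j} {c : ℕ} {r : ℝ}
    (hr : r ∈ Set.Icc (pl.a c) (pl.b c)) (x : EE d) {A : ℝ} (hA : 0 ≤ A)
    (hU : ∀ j : ℕ, C.W ^ j * (((j : ℝ) + 1) * ‖U j r x‖ + ‖D j r x‖) ≤ A) (j : ℕ) :
    C.W ^ j * ‖forceOp H sh pl.pos θ U D j r x‖ ≤
      Kf * ((j : ℝ) + 1) * (s * Real.exp (-pl.κ (pl.a c))) * A :=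
  hKf.2 d sh pl.pos θ U D j r x _ A pl.pos_gap (F.drift_le r) (by positivity) hA
    (fun n l hn => pl.idx_of_mem hr hn ▸ hθ n l) hU

lemma force_le_global (hKf : ForceBound H P C Kf) {θ : ℕ → Fin P.n → ℝ} {s B : ℝ} (hs : 0 ≤ s)
    (hB : 0 ≤ B) (hθ : pl.AmpLe s θ) {U D : (j : ℕ) → ℝ → EE d →L[ℝ] V j}
    (hU : pl.ModeLe B U D) (j : ℕ) (r : ℝ) (x : EE d) :
    ‖forceOp H sh pl.pos θ U D j r x‖ ≤
      Kf * ((j : ℝ) + 1) * s * B / C.W ^ j * Real.exp (-(pl.κ r / 2)) * ‖pl.N r x‖ := by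
  have hK := hKf.1
  have hW := pl.W_pos
  by_cases hn : ∃ n, r - pl.pos n ∈ Set.Ioo (0 : ℝ) 1
  swap
  · push Not at hn
    rw [forceOp_eq_zero fun n => Or.inl (hn n), zero_apply, norm_zero]
    positivity
  obtain ⟨n, hn⟩ := hn
  obtain ⟨h1, h2⟩ := pl.slot_idx n
  have hr : r ∈ Set.Icc (pl.a (pl.idx n)) (pl.b (pl.idx n)) :=
    ⟨by linarith [hn.1], by linarith [hn.2]⟩
  have h := pl.force_le hKf hs hθ hr x (A := B * ‖pl.N r x‖) (by positivity)
    (fun i => hU.le i r x) j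
  rw [div_mul_eq_mul_div, div_mul_eq_mul_div, le_div_iff₀ (by positivity), mul_comm]
  refine h.trans ?_
  calc Kf * ((j : ℝ) + 1) * (s * Real.exp (-pl.κ (pl.a (pl.idx n)))) * (B * ‖pl.N r x‖)
      = Kf * ((j : ℝ) + 1) * s * B * ‖pl.N r x‖ * Real.exp (-pl.κ (pl.a (pl.idx n))) := by ring
    _ ≤ Kf * ((j : ℝ) + 1) * s * B * ‖pl.N r x‖ * Real.exp (-(pl.κ r / 2)) :=
        mul_le_mul_of_nonneg_left (pl.exp_window' hr) (by positivity)
    _ = _ := by ring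

lemma N_rel {r t : ℝ} (x : EE d) :
    ‖pl.N r x‖ ≤ C.K * Real.exp (C.Λ * |r - t|) * ‖pl.N t x‖ := by
  have := pl.K_nonneg
  rcases le_total r t with h | h
  · refine (pl.N_past t r h x).trans (mul_le_mul_of_nonneg_right
      (mul_le_mul_of_nonneg_left (Real.exp_le_exp.2 ?_) this) (norm_nonneg _))
    nlinarith [mul_nonneg C.Λ_nonneg (abs_nonneg (r - t))]
  · rw [abs_of_nonneg (sub_nonneg.2 h)]
    exact pl.N_future t r h x

/-- The jump produced inside a composite, measured at a time of the same composite. -/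
lemma window_le (hKf : ForceBound H P C Kf) {θ : ℕ → Fin P.n → ℝ} {s B : ℝ} (hs : 0 ≤ s)
    (hB : 0 ≤ B) (hθ : pl.AmpLe s θ) {U D : (j : ℕ) → ℝ → EE d →L[ℝ] V j}
    (hUc : ∀ i, Continuous (U i)) (hDc : ∀ i, Continuous (D i)) {c : ℕ}
    (hU : ∀ r ∈ Set.Icc (pl.a c) (pl.b c), ∀ (i : ℕ) x,
      C.W ^ i * (((i : ℝ) + 1) * ‖U i r x‖ + ‖D i r x‖) ≤ B * ‖pl.N r x‖)
    {j : ℕ} (hj1 : 1 ≤ j) (hj2 : j < C.J) {q t : ℝ} (hq : q ∈ Set.Icc (pl.a c) (pl.b c))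
    (ht : t ∈ Set.Icc (pl.a c) (pl.b c)) (x : EE d) :
    ‖F.Φ j t ((∫ r in pl.a c..q, (F.Ω j r).comp (forceOp H sh pl.pos θ U D j r)) x)‖ ≤
      C.K * C.K * C.K * Kf * (C.J : ℝ) * s * B * Real.exp (-pl.κ (pl.a c)) *
        Real.exp ((C.Γ + C.Λ + 1) * (pl.b c - pl.a c)) * ‖pl.N t x‖ := by
  have hK := pl.K_nonneg
  have hKf0 := hKf.1
  set len := pl.b c - pl.a c with hlen
  have hl0 : 0 ≤ len := by linarith [pl.len_one c]
  set A : ℝ := C.K * C.K * C.K * Kf * (C.J : ℝ) * s * B * Real.exp (-pl.κ (pl.a c)) *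
    Real.exp ((C.Γ + C.Λ) * len) * ‖pl.N t x‖ with hA
  refine (norm_comp_integral_apply_le (pl.continuous_Ω_force hj1 hj2 θ hUc hDc) _ hq.1
    (continuous_const (y := A)) x ?_).trans ?_
  · intro r hr
    have hr' : r ∈ Set.Icc (pl.a c) (pl.b c) := ⟨hr.1.le, hr.2.trans hq.2⟩
    have hd1 : |t - r| ≤ len := abs_le.2
      ⟨by linarith [ht.1, hr'.2], by linarith [ht.2, hr'.1]⟩
    have hd2 : |r - t| ≤ len := by rwa [abs_sub_comm]
    set f := forceOp H sh pl.pos θ U D j r x with hf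
    have h1 : ‖f‖ ≤ Kf * (C.J : ℝ) * (s * Real.exp (-pl.κ (pl.a c))) *
        (B * (C.K * Real.exp (C.Λ * len) * ‖pl.N t x‖)) := by
      have h := pl.force_le hKf hs hθ hr' x (A := B * ‖pl.N r x‖) (by positivity)
        (fun i => hU r hr' i x) j
      refine (le_mul_of_one_le_left (norm_nonneg _) (one_le_pow₀ C.one_le_W)).trans (h.trans ?_)
      have hjJ : (j : ℝ) + 1 ≤ C.J := by exact_mod_cast hj2
      refine mul_le_mul (mul_le_mul_of_nonneg_right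
        (mul_le_mul_of_nonneg_left hjJ hKf0) (by positivity))
        (mul_le_mul_of_nonneg_left ((pl.N_rel (t := t) x).trans ?_) hB) (by positivity)
        (by positivity)
      exact mul_le_mul_of_nonneg_right (mul_le_mul_of_nonneg_left (Real.exp_le_exp.2
        (mul_le_mul_of_nonneg_left hd2 C.Λ_nonneg)) hK) (norm_nonneg _)
    have h2 : ‖F.Φ j t (F.Ω j r f)‖ ≤ C.K * Real.exp (C.Γ * len) * (C.K * ‖f‖) := by
      have h3 : F.Φ j t (F.Ω j r f) = ((F.Φ j t).comp (F.Φi j r))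
          (((F.Φ j r).comp (F.Ω j r)) f) := by simp [Φi_Φ_apply]
      rw [h3]
      refine (((F.Φ j t).comp (F.Φi j r)).le_of_opNorm_le (F.flow_le j hj2 t r) _).trans ?_
      exact mul_le_mul (mul_le_mul_of_nonneg_left (Real.exp_le_exp.2
        (mul_le_mul_of_nonneg_left hd1 C.Γ_nonneg)) hK)
        (((F.Φ j r).comp (F.Ω j r)).le_of_opNorm_le (F.Ω_le j hj1 hj2 r) f)
        (norm_nonneg _) (by positivity)
    refine h2.trans (le_trans (mul_le_mul_of_nonneg_left (mul_le_mul_of_nonneg_left h1 hK)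
      (by positivity)) (le_of_eq ?_))
    rw [hA, add_mul, Real.exp_add]
    ring
  · rw [intervalIntegral.integral_const, smul_eq_mul]
    have h1 : q - pl.a c ≤ Real.exp len := by linarith [hq.2, Real.add_one_le_exp len]
    refine (mul_le_mul_of_nonneg_right h1 (by positivity)).trans (le_of_eq ?_)
    rw [hA, show (C.Γ + C.Λ + 1) * len = len + (C.Γ + C.Λ) * len by ring, Real.exp_add]
    ring

variable {θ : ℕ → Fin P.n → ℝ} {U D : (j : ℕ) → ℝ → EE d →L[ℝ] V j}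

lemma ecor_le (hKf : ForceBound H P C Kf) {s B : ℝ} (hs : 0 ≤ s) (hB : 0 ≤ B)
    (hθ : pl.AmpLe s θ) (hU : pl.ModeLe B U D) {j : ℕ} (hj1 : 1 ≤ j) (hj2 : j < C.J) (t : ℝ)
    (x : EE d) : ‖F.Φ j t (pl.ecor θ U D j t x)‖ ≤
      2 * (C.K * C.K * C.K * Kf * (C.J : ℝ)) * s * B * Real.exp (-(pl.κ t / 2)) *
        ‖pl.N t x‖ := by
  have hK := pl.K_nonneg
  have hKf0 := hKf.1
  rw [pl.ecor_eq hj1 hj2 hU.cont_u hU.cont_du]
  set c := pl.win t
  rcases le_or_gt t (pl.a c) with h | h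
  · rw [pl.ecor_term_zero hj1 hj2 hU.cont_u hU.cont_du (Or.inl h), zero_apply, map_zero,
      norm_zero]
    positivity
  have ht : t ∈ Set.Icc (pl.a c) (pl.b c) := ⟨h.le, pl.le_b_win t⟩
  have hb : pl.b c ∈ Set.Icc (pl.a c) (pl.b c) := ⟨(pl.a_lt_b c).le, le_rfl⟩
  rw [pl.part_eq_integral hj1 hj2 hU.cont_u hU.cont_du hb,
    pl.part_eq_integral hj1 hj2 hU.cont_u hU.cont_du ht, sub_apply, smul_apply, map_sub,
    map_smul]
  refine (norm_sub_le _ _).trans ?_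
  rw [norm_smul, Real.norm_eq_abs, abs_of_nonneg (pl.ramp_mem c t).1]
  have w1 := pl.window_le hKf hs hB hθ hU.cont_u hU.cont_du (fun r _ i y => hU.le i r y)
    hj1 hj2 hb ht x
  have w2 := pl.window_le hKf hs hB hθ hU.cont_u hU.cont_du (fun r _ i y => hU.le i r y)
    hj1 hj2 ht ht x
  refine (add_le_add ((mul_le_of_le_one_left (norm_nonneg _) (pl.ramp_mem c t).2).trans w1)
    w2).trans ?_
  calc _ = 2 * (C.K * C.K * C.K * Kf * (C.J : ℝ)) * s * B * ‖pl.N t x‖ *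
        (Real.exp (-pl.κ (pl.a c)) * Real.exp ((C.Γ + C.Λ + 1) * (pl.b c - pl.a c))) := by ring
    _ ≤ 2 * (C.K * C.K * C.K * Kf * (C.J : ℝ)) * s * B * ‖pl.N t x‖ *
        Real.exp (-(pl.κ t / 2)) := mul_le_mul_of_nonneg_left (pl.exp_window ht) (by positivity)
    _ = _ := by ring

lemma yv_le (hKf : ForceBound H P C Kf) {s B : ℝ} (hs : 0 ≤ s) (hB : 0 ≤ B)
    (hθ : pl.AmpLe s θ) (hU : pl.ModeLe B U D) (j : ℕ) (t : ℝ) (x : EE d) :
    ‖pl.yv θ U D j t x‖ ≤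
      yConst C Kf * s * B / C.W ^ j * Real.exp (-(pl.κ t / 2)) * ‖pl.N t x‖ := by
  have hK := pl.K_nonneg
  have hKf0 := hKf.1
  have hW := pl.W_pos
  have hμ := C.μ_pos
  refine (norm_yOp_le (continuous_forceOp pl.pos_start pl.pos_gap θ hU.cont_u hU.cont_du j)
    pl.κ_lip pl.N_past (fun r hr => pl.force_zero θ U D j (Or.inl (hr.trans zero_le_one)))
    (G := Kf * ((j : ℝ) + 1) * s * B / C.W ^ j) (by positivity)
    (fun r y => pl.force_le_global hKf hs hB hθ hU j r y) t x).trans ?_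
  refine mul_le_mul_of_nonneg_right (mul_le_mul_of_nonneg_right ?_ (Real.exp_pos _).le)
    (norm_nonneg _)
  have hr : ((j : ℝ) + 1) / (1 + C.μ * j) ≤ 1 + 1 / C.μ := by
    rw [div_le_iff₀ (by positivity)]
    have h1 : (1 + 1 / C.μ) * (1 + C.μ * j) = 1 + 1 / C.μ + C.μ * j + j := by field_simp; ring
    have : 0 < 1 / C.μ := by positivity
    nlinarith [mul_nonneg hμ.le (j.cast_nonneg : (0 : ℝ) ≤ j)]
  calc C.K * C.K * (Kf * ((j : ℝ) + 1) * s * B / C.W ^ j) / (1 + C.μ * j)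
      = C.K * C.K * Kf * (s * B) / C.W ^ j * (((j : ℝ) + 1) / (1 + C.μ * j)) := by ring
    _ ≤ C.K * C.K * Kf * (s * B) / C.W ^ j * (1 + 1 / C.μ) :=
        mul_le_mul_of_nonneg_left hr (by positivity)
    _ = _ := by rw [yConst]; ring

lemma yConst_nonneg (_pl : Plan F P d d' ε) (hKf : ForceBound H P C Kf) :
    0 ≤ yConst C Kf := by
  have := _pl.K_nonneg; have := hKf.1; have := C.μ_pos
  unfold yConst; positivity

lemma uTwo_integrable (hKf : ForceBound H P C Kf) {s B : ℝ} (hs : 0 ≤ s) (hB : 0 ≤ B)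
    (hθ : pl.AmpLe s θ) (hU : pl.ModeLe B U D) {j : ℕ} (hj : C.J ≤ j) (t : ℝ) :
    IntegrableOn (fun r => (F.Φi j r).comp (pl.yv θ U D j r)) (Set.Ioi t) := by
  have := pl.yConst_nonneg hKf
  have := pl.W_pos
  exact integrableOn_uTwo hj (pl.continuous_yv hU.cont_u hU.cont_du j) pl.N_future pl.κ_nonneg
    (Y := yConst C Kf * s * B / C.W ^ j) (by positivity)
    (fun r y => pl.yv_le hKf hs hB hθ hU j r y) t

lemma uv_le (hKf : ForceBound H P C Kf) {s B : ℝ} (hs : 0 ≤ s) (hB : 0 ≤ B)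
    (hθ : pl.AmpLe s θ) (hU : pl.ModeLe B U D) (j : ℕ) (t : ℝ) (x : EE d) :
    ((j : ℝ) + 1) * ‖pl.uv θ U D j t x‖ ≤
      uConst C Kf * s * B / C.W ^ j * Real.exp (-(pl.κ t / 2)) * ‖pl.N t x‖ := by
  have hK := pl.K_nonneg
  have hKf0 := hKf.1
  have hW := pl.W_pos
  have hμ := C.μ_pos
  have hY := pl.yConst_nonneg hKf
  set Y : ℝ := yConst C Kf * s * B / C.W ^ j with hYdef
  have hY0 : 0 ≤ Y := by positivity
  set e : ℝ := Real.exp (-(pl.κ t / 2)) * ‖pl.N t x‖ with he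
  have he0 : 0 ≤ e := by positivity
  have hyb : ∀ r y, ‖pl.yv θ U D j r y‖ ≤ Y * Real.exp (-(pl.κ r / 2)) * ‖pl.N r y‖ :=
    fun r y => pl.yv_le hKf hs hB hθ hU j r y
  set U1 : ℝ := C.W ^ C.J * (C.J : ℝ) *
    (2 * (C.K * C.K * C.K * Kf * (C.J : ℝ)) + C.K * yConst C Kf) with hU1
  set U2 : ℝ := 4 * C.K * yConst C Kf with hU2
  set U3 : ℝ := (2 + 1 / C.μ) * (C.K * C.K * yConst C Kf) with hU3
  have h1 : 0 ≤ U1 := by positivity
  have h2 : 0 ≤ U2 := by positivity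
  have h3 : 0 ≤ U3 := by positivity
  have hgoal : ∀ z : ℝ, ((j : ℝ) + 1) * z ≤ U1 * (s * B / C.W ^ j * e) ∨
      ((j : ℝ) + 1) * z ≤ U2 * (s * B / C.W ^ j * e) ∨
      ((j : ℝ) + 1) * z ≤ U3 * (s * B / C.W ^ j * e) →
      ((j : ℝ) + 1) * z ≤ uConst C Kf * s * B / C.W ^ j * Real.exp (-(pl.κ t / 2)) *
        ‖pl.N t x‖ := by
    intro z hz
    have hE : 0 ≤ s * B / C.W ^ j * e := by positivity
    have hu : uConst C Kf * s * B / C.W ^ j * Real.exp (-(pl.κ t / 2)) * ‖pl.N t x‖ =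
        (U1 + U2 + U3) * (s * B / C.W ^ j * e) := by rw [uConst, he]; ring
    rw [hu]
    rcases hz with hz | hz | hz <;> nlinarith [mul_nonneg h1 hE, mul_nonneg h2 hE, mul_nonneg h3 hE]
  apply hgoal
  by_cases hj0 : j = 0
  · subst hj0
    refine Or.inr (Or.inl ?_)
    simp only [uv, if_true, Nat.cast_zero, zero_add, one_mul, pow_zero, div_one]
    rcases le_or_gt t 0 with ht | ht
    · have : (∫ r in (0 : ℝ)..t, pl.yv θ U D 0 r) = ∫ _ in (0 : ℝ)..t, (0 : EE d →L[ℝ] V 0) :=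
        integral_congr fun r hr =>
          pl.yv_zero θ U D 0 (Or.inl ((hr.2.trans (max_le le_rfl ht)).trans zero_le_one))
      rw [this]
      simpa using mul_nonneg h2 (by positivity : (0 : ℝ) ≤ s * B * e)
    have hc : (0 : ℝ) < 1 / 4 := by norm_num
    refine (norm_comp_integral_apply_le (T := ContinuousLinearMap.id ℝ (V 0))
      (pl.continuous_yv hU.cont_u hU.cont_du 0) ht.le
      (h := fun r => C.K * Y * e * Real.exp (-(1 / 4) * (t - r))) (by fun_prop) x ?_).trans ?_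
    · intro r hr
      refine (hyb r x).trans ?_
      have hN := pl.N_past t r hr.2 x
      have hk := (abs_le.1 (pl.κ_lip r t)).1
      rw [abs_sub_comm r t, abs_of_nonneg (sub_nonneg.2 hr.2)] at hk
      calc Y * Real.exp (-(pl.κ r / 2)) * ‖pl.N r x‖
          ≤ Y * Real.exp (-(pl.κ r / 2)) *
              (C.K * Real.exp (-(1 / 2) * (t - r)) * ‖pl.N t x‖) :=
            mul_le_mul_of_nonneg_left hN (by positivity)
        _ = C.K * Y * ‖pl.N t x‖ * (Real.exp (-(pl.κ r / 2)) *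
              Real.exp (-(1 / 2) * (t - r))) := by ring
        _ ≤ C.K * Y * ‖pl.N t x‖ * (Real.exp (-(pl.κ t / 2)) *
              Real.exp (-(1 / 4) * (t - r))) := by
            refine mul_le_mul_of_nonneg_left ?_ (by positivity)
            rw [← Real.exp_add, ← Real.exp_add, Real.exp_le_exp]
            have := sub_nonneg.2 hr.2
            linarith
        _ = _ := by rw [he]; ring
    · rw [intervalIntegral.integral_const_mul]
      refine (mul_le_mul_of_nonneg_left (integral_exp_le hc t) (by positivity)).trans (le_of_eq ?_)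
      simp [hU2, hYdef]; ring
  have hj1 : 1 ≤ j := Nat.one_le_iff_ne_zero.2 hj0
  by_cases hjJ : j < C.J
  · refine Or.inl ?_
    simp only [uv, if_neg hj0, if_pos hjJ, ContinuousLinearMap.comp_apply, sub_apply, map_sub]
    have he' := pl.ecor_le hKf hs hB hθ hU hj1 hjJ t x
    have hy' : ‖F.Φ j t (F.Ω j t (pl.yv θ U D j t x))‖ ≤ C.K * ‖pl.yv θ U D j t x‖ :=
      ((F.Φ j t).comp (F.Ω j t)).le_of_opNorm_le (F.Ω_le j hj1 hjJ t) _
    have hjr : (j : ℝ) + 1 ≤ C.J := by exact_mod_cast hjJ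
    have hWj : C.W ^ j ≤ C.W ^ C.J := pow_le_pow_right₀ C.one_le_W hjJ.le
    calc ((j : ℝ) + 1) * ‖F.Φ j t (pl.ecor θ U D j t x) - F.Φ j t (F.Ω j t (pl.yv θ U D j t x))‖
        ≤ (C.J : ℝ) * (2 * (C.K * C.K * C.K * Kf * (C.J : ℝ)) * s * B *
            (C.W ^ C.J / C.W ^ j) * e + C.K * (Y * C.W ^ C.J * e)) := by
          refine mul_le_mul hjr ((norm_sub_le _ _).trans (add_le_add (he'.trans ?_)
            (hy'.trans (mul_le_mul_of_nonneg_left ((hyb t x).trans ?_) hK)))) (norm_nonneg _)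
            (by positivity)
          · have : 1 ≤ C.W ^ C.J / C.W ^ j := (one_le_div (by positivity)).2 hWj
            rw [he]
            have hP : 0 ≤ 2 * (C.K * C.K * C.K * Kf * (C.J : ℝ)) * s * B * e := by positivity
            nlinarith [mul_le_mul_of_nonneg_left this hP]
          · rw [mul_assoc Y, ← he]
            exact mul_le_mul_of_nonneg_right
              (le_mul_of_one_le_right hY0 (one_le_pow₀ C.one_le_W)) he0
      _ = U1 * (s * B / C.W ^ j * e) := by rw [hU1, hYdef]; ring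
  · refine Or.inr (Or.inr ?_)
    have hJ : C.J ≤ j := not_lt.1 hjJ
    simp only [uv, if_neg hj0, if_neg hjJ]
    refine (mul_le_mul_of_nonneg_left (norm_uTwo_le hJ pl.κ_lip pl.N_future
      (pl.uTwo_integrable hKf hs hB hθ hU hJ) hY0 hyb t x) (by positivity)).trans ?_
    have hr : ((j : ℝ) + 1) / (1 / 2 + C.μ * j) ≤ 2 + 1 / C.μ := by
      rw [div_le_iff₀ (by positivity)]
      have h1' : (2 + 1 / C.μ) * (1 / 2 + C.μ * j) = 1 + 1 / (2 * C.μ) + 2 * C.μ * j + j := by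
        field_simp; ring
      have : 0 < 1 / (2 * C.μ) := by positivity
      nlinarith [mul_nonneg hμ.le (j.cast_nonneg : (0 : ℝ) ≤ j)]
    calc ((j : ℝ) + 1) * (C.K * C.K * Y / (1 / 2 + C.μ * j) * Real.exp (-(pl.κ t / 2)) *
          ‖pl.N t x‖)
        = C.K * C.K * Y * e * (((j : ℝ) + 1) / (1 / 2 + C.μ * j)) := by rw [he]; ring
      _ ≤ C.K * C.K * Y * e * (2 + 1 / C.μ) := mul_le_mul_of_nonneg_left hr (by positivity)
      _ = U3 * (s * B / C.W ^ j * e) := by rw [hU3, hYdef]; ring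

lemma resp_le (hKf : ForceBound H P C Kf) {s B : ℝ} (hs : 0 ≤ s) (hB : 0 ≤ B)
    (hθ : pl.AmpLe s θ) (hU : pl.ModeLe B U D) (j : ℕ) (t : ℝ) (x : EE d) :
    C.W ^ j * (((j : ℝ) + 1) * ‖pl.uv θ U D j t x‖ + ‖pl.dv θ U D j t x‖) ≤
      respConst C Kf * s * B * (Real.exp (-(pl.κ t / 2)) * ‖pl.N t x‖) := by
  have hK := pl.K_nonneg
  have hW := pl.W_pos
  have hu := pl.uv_le hKf hs hB hθ hU j t x
  have hy := pl.yv_le hKf hs hB hθ hU j t x
  have hd : ‖pl.dv θ U D j t x‖ ≤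
      C.K * (((j : ℝ) + 1) * ‖pl.uv θ U D j t x‖) + ‖pl.yv θ U D j t x‖ := by
    simp only [dv, add_apply, ContinuousLinearMap.comp_apply]
    refine (norm_add_le _ _).trans (add_le_add_left ?_ _)
    rw [← mul_assoc]
    exact (F.Pj j t).le_of_opNorm_le (F.P_le j t) _
  have hu' := mul_le_mul_of_nonneg_left hu hK
  have hWj : 0 ≤ C.W ^ j := by positivity
  refine (mul_le_mul_of_nonneg_left (add_le_add hu (hd.trans (add_le_add hu' hy))) hWj).trans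
    (le_of_eq ?_)
  rw [respConst]
  field_simp

lemma continuous_uv (hKf : ForceBound H P C Kf) {s B : ℝ} (hs : 0 ≤ s) (hB : 0 ≤ B)
    (hθ : pl.AmpLe s θ) (hU : pl.ModeLe B U D) (j : ℕ) : Continuous (pl.uv θ U D j) := by
  have hy := pl.continuous_yv hU.cont_u hU.cont_du (θ := θ) j
  by_cases hj0 : j = 0
  · have : pl.uv θ U D j = fun t => ∫ r in (0 : ℝ)..t, pl.yv θ U D j r := by
      ext1 t; simp [uv, if_pos hj0]
    rw [this]
    exact continuous_iff_continuousAt.2 fun t => (hasDerivAt_integral hy 0 t).continuousAt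
  have hj1 : 1 ≤ j := Nat.one_le_iff_ne_zero.2 hj0
  by_cases hjJ : j < C.J
  · have : pl.uv θ U D j = fun t =>
        (F.Φ j t).comp (pl.ecor θ U D j t - (F.Ω j t).comp (pl.yv θ U D j t)) := by
      ext1 t; simp [uv, if_neg hj0, if_pos hjJ]
    rw [this]
    exact (continuous_Φ j).clm_comp ((pl.continuous_ecor hj1 hjJ hU.cont_u hU.cont_du).sub
      ((continuous_Ω hj1 hjJ).clm_comp hy))
  · have : pl.uv θ U D j = uTwo F j (pl.yv θ U D j) := by
      ext1 t; simp [uv, if_neg hj0, if_neg hjJ]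
    rw [this]
    exact continuous_iff_continuousAt.2 fun t => (hasDerivAt_uTwo hy
      (pl.uTwo_integrable hKf hs hB hθ hU (not_lt.1 hjJ)) t).continuousAt

lemma continuous_dv (hKf : ForceBound H P C Kf) {s B : ℝ} (hs : 0 ≤ s) (hB : 0 ≤ B)
    (hθ : pl.AmpLe s θ) (hU : pl.ModeLe B U D) (j : ℕ) : Continuous (pl.dv θ U D j) :=
  ((continuous_P j).clm_comp (pl.continuous_uv hKf hs hB hθ hU j)).add
    (pl.continuous_yv hU.cont_u hU.cont_du j)

/-- Linearity of the response in the forcing. -/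
lemma uv_sub (hKf : ForceBound H P C Kf) {s₂ B₂ s₃ B₃ : ℝ} (hs₂ : 0 ≤ s₂) (hB₂ : 0 ≤ B₂)
    (hs₃ : 0 ≤ s₃) (hB₃ : 0 ≤ B₃) {θ₁ θ₂ θ₃ : ℕ → Fin P.n → ℝ}
    {U₁ D₁ U₂ D₂ U₃ D₃ : (j : ℕ) → ℝ → EE d →L[ℝ] V j}
    (hU₁ : ∀ i, Continuous (U₁ i)) (hD₁ : ∀ i, Continuous (D₁ i))
    (h₂ : pl.AmpLe s₂ θ₂) (hU₂ : pl.ModeLe B₂ U₂ D₂)
    (h₃ : pl.AmpLe s₃ θ₃) (hU₃ : pl.ModeLe B₃ U₃ D₃)
    (hf : ∀ j t, forceOp H sh pl.pos θ₁ U₁ D₁ j t =
      forceOp H sh pl.pos θ₂ U₂ D₂ j t - forceOp H sh pl.pos θ₃ U₃ D₃ j t) (j : ℕ) (t : ℝ) :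
    pl.uv θ₁ U₁ D₁ j t = pl.uv θ₂ U₂ D₂ j t - pl.uv θ₃ U₃ D₃ j t ∧
      pl.dv θ₁ U₁ D₁ j t = pl.dv θ₂ U₂ D₂ j t - pl.dv θ₃ U₃ D₃ j t := by
  have hcf : ∀ (θ : ℕ → Fin P.n → ℝ) {U D : (j : ℕ) → ℝ → EE d →L[ℝ] V j},
      (∀ i, Continuous (U i)) → (∀ i, Continuous (D i)) →
      Continuous fun r => (F.Zi j r).comp (forceOp H sh pl.pos θ U D j r) := fun θ U D hU hD =>
    (F.Zi_cont j).clm_comp (continuous_forceOp pl.pos_start pl.pos_gap θ hU hD j)
  have hy : ∀ r, pl.yv θ₁ U₁ D₁ j r = pl.yv θ₂ U₂ D₂ j r - pl.yv θ₃ U₃ D₃ j r := fun r => by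
    have h : (∫ q in (0 : ℝ)..r, (F.Zi j q).comp (forceOp H sh pl.pos θ₁ U₁ D₁ j q)) =
        (∫ q in (0 : ℝ)..r, (F.Zi j q).comp (forceOp H sh pl.pos θ₂ U₂ D₂ j q)) -
          ∫ q in (0 : ℝ)..r, (F.Zi j q).comp (forceOp H sh pl.pos θ₃ U₃ D₃ j q) := by
      rw [← intervalIntegral.integral_sub
        ((hcf θ₂ hU₂.cont_u hU₂.cont_du).intervalIntegrable 0 r)
        ((hcf θ₃ hU₃.cont_u hU₃.cont_du).intervalIntegrable 0 r)]
      exact integral_congr fun q _ => by simp only [hf, ContinuousLinearMap.comp_sub]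
    simp only [yv, yOp, h, ContinuousLinearMap.comp_sub]
    abel
  have hu : pl.uv θ₁ U₁ D₁ j t = pl.uv θ₂ U₂ D₂ j t - pl.uv θ₃ U₃ D₃ j t := by
    by_cases hj0 : j = 0
    · simp only [uv, if_pos hj0]
      rw [← intervalIntegral.integral_sub
        ((pl.continuous_yv hU₂.cont_u hU₂.cont_du j).intervalIntegrable 0 t)
        ((pl.continuous_yv hU₃.cont_u hU₃.cont_du j).intervalIntegrable 0 t)]
      exact integral_congr fun q _ => hy q
    have hj1 : 1 ≤ j := Nat.one_le_iff_ne_zero.2 hj0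
    by_cases hjJ : j < C.J
    · simp only [uv, if_neg hj0, if_pos hjJ]
      have hp : ∀ q ∈ Set.Icc (pl.a (pl.win t)) (pl.b (pl.win t)),
          pl.part θ₁ U₁ D₁ (pl.win t) j q =
            pl.part θ₂ U₂ D₂ (pl.win t) j q - pl.part θ₃ U₃ D₃ (pl.win t) j q := fun q hq => by
        rw [pl.part_eq_integral hj1 hjJ hU₁ hD₁ hq,
          pl.part_eq_integral hj1 hjJ hU₂.cont_u hU₂.cont_du hq,
          pl.part_eq_integral hj1 hjJ hU₃.cont_u hU₃.cont_du hq, ← intervalIntegral.integral_sub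
          ((pl.continuous_Ω_force hj1 hjJ θ₂ hU₂.cont_u hU₂.cont_du).intervalIntegrable _ _)
          ((pl.continuous_Ω_force hj1 hjJ θ₃ hU₃.cont_u hU₃.cont_du).intervalIntegrable _ _)]
        exact integral_congr fun q' _ => by simp only [hf, ContinuousLinearMap.comp_sub]
      have he : pl.ecor θ₁ U₁ D₁ j t = pl.ecor θ₂ U₂ D₂ j t - pl.ecor θ₃ U₃ D₃ j t := by
        rcases le_or_gt t (pl.a (pl.win t)) with h | h
        · simp only [pl.ecor_eq hj1 hjJ hU₁ hD₁, pl.ecor_eq hj1 hjJ hU₂.cont_u hU₂.cont_du,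
            pl.ecor_eq hj1 hjJ hU₃.cont_u hU₃.cont_du,
            pl.ecor_term_zero hj1 hjJ hU₁ hD₁ (Or.inl h),
            pl.ecor_term_zero hj1 hjJ hU₂.cont_u hU₂.cont_du (Or.inl h),
            pl.ecor_term_zero hj1 hjJ hU₃.cont_u hU₃.cont_du (Or.inl h), sub_zero]
        · rw [pl.ecor_eq hj1 hjJ hU₁ hD₁, pl.ecor_eq hj1 hjJ hU₂.cont_u hU₂.cont_du,
            pl.ecor_eq hj1 hjJ hU₃.cont_u hU₃.cont_du,
            hp _ ⟨(pl.a_lt_b _).le, le_rfl⟩, hp t ⟨h.le, pl.le_b_win t⟩]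
          ext1 x
          simp only [sub_apply, smul_apply, smul_sub]
          abel
      rw [he, hy]
      ext1 x
      simp only [ContinuousLinearMap.comp_apply, sub_apply, map_sub]
      abel
    · simp only [uv, if_neg hj0, if_neg hjJ, uTwo]
      have hJ : C.J ≤ j := not_lt.1 hjJ
      have h : (∫ q in Set.Ioi t, (F.Φi j q).comp (pl.yv θ₁ U₁ D₁ j q)) =
          (∫ q in Set.Ioi t, (F.Φi j q).comp (pl.yv θ₂ U₂ D₂ j q)) -
            ∫ q in Set.Ioi t, (F.Φi j q).comp (pl.yv θ₃ U₃ D₃ j q) := by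
        rw [← MeasureTheory.integral_sub (pl.uTwo_integrable hKf hs₂ hB₂ h₂ hU₂ hJ t)
          (pl.uTwo_integrable hKf hs₃ hB₃ h₃ hU₃ hJ t)]
        exact setIntegral_congr_fun measurableSet_Ioi fun q _ => by
          simp only [hy, ContinuousLinearMap.comp_sub]
      rw [h, ContinuousLinearMap.comp_sub]
      abel
  refine ⟨hu, ?_⟩
  simp only [dv, hu, hy, ContinuousLinearMap.comp_sub]
  abel

end Plan

end

end Vale.Agent.P225.FP
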