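import Vale.Agent.P225.FP.Pulse

/-!
P225, fixed point: the response of one degree.

`yOp` solves `y' = -(2+s+P) y - f` with `y = 0` at time `0`; `uTwo` solves `u' = P u + y` and is
small at `+∞`.
-/

namespace Vale.Agent.P225.FP

open MeasureTheory intervalIntegral
open scoped RealInnerProductSpace ContDiff

noncomputable section

variable {H : Harm} {sh : Shape} {C : Consts} (F : Flow H sh C) {d d' : ℕ}

/-- The stable variable `u' - P u` produced by the forcing `f`. -/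
def yOp (j : ℕ) (f : ℝ → EE d →L[ℝ] V j) (t : ℝ) : EE d →L[ℝ] V j :=
  -(F.Z j t).comp (∫ s in (0 : ℝ)..t, (F.Zi j s).comp (f s))

/-- The solution of `u' = P u + y` which is small at `+∞`. -/
def uTwo (j : ℕ) (y : ℝ → EE d →L[ℝ] V j) (t : ℝ) : EE d →L[ℝ] V j :=
  -(F.Φ j t).comp (∫ s in Set.Ioi t, (F.Φi j s).comp (y s))

variable {F}

lemma continuous_Φi (j : ℕ) : Continuous (F.Φi j) :=
  continuous_iff_continuousAt.2 fun t => (F.deriv_Φi j t).continuousAt

lemma continuous_Φ (j : ℕ) : Continuous (F.Φ j) :=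
  continuous_iff_continuousAt.2 fun t => (F.deriv_Φ j t).continuousAt

lemma continuous_P (j : ℕ) : Continuous (F.Pj j) :=
  continuous_iff_continuousAt.2 fun t => (F.deriv_P j t).continuousAt

lemma continuous_Z (j : ℕ) : Continuous (F.Z j) :=
  continuous_iff_continuousAt.2 fun t => (F.deriv_Z j t).continuousAt

lemma continuous_Ω {j : ℕ} (h1 : 1 ≤ j) (h2 : j < C.J) : Continuous (F.Ω j) :=
  continuous_iff_continuousAt.2 fun t => (F.deriv_Ω j h1 h2 t).continuousAt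

lemma Φ_Φi_apply (j : ℕ) (t : ℝ) (v : V j) : F.Φ j t (F.Φi j t v) = v :=
  congrArg (fun T : Op j j => T v) (F.Φ_Φi j t)

lemma Φi_Φ_apply (j : ℕ) (t : ℝ) (v : V j) : F.Φi j t (F.Φ j t v) = v :=
  congrArg (fun T : Op j j => T v) (F.Φi_Φ j t)

lemma hasDerivAt_integral {j : ℕ} {g : ℝ → EE d →L[ℝ] V j} (hg : Continuous g) (a t : ℝ) :
    HasDerivAt (fun r => ∫ s in a..r, g s) (g t) t :=
  (hg.integral_hasStrictDerivAt a t).hasDerivAt

lemma hasDerivAt_yOp {j : ℕ} {f : ℝ → EE d →L[ℝ] V j} (hf : Continuous f) (t : ℝ) :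
    HasDerivAt (yOp F j f)
      (-((2 + sh.drift t) • yOp F j f t + (F.Pj j t).comp (yOp F j f t)) - f t) t := by
  have hg : Continuous fun s => (F.Zi j s).comp (f s) := (F.Zi_cont j).clm_comp hf
  have h := ((F.deriv_Z j t).clm_comp (hasDerivAt_integral hg 0 t)).neg
  refine h.congr_deriv ?_
  ext1 x
  have hz := congrArg (fun T : Op j j => T (f t x)) (F.Z_Zi j t)
  simp only [ContinuousLinearMap.comp_apply, ContinuousLinearMap.id_apply] at hz
  simp [yOp, hz]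
  abel

lemma continuous_yOp {j : ℕ} {f : ℝ → EE d →L[ℝ] V j} (hf : Continuous f) :
    Continuous (yOp F j f) :=
  continuous_iff_continuousAt.2 fun t => (hasDerivAt_yOp hf t).continuousAt

lemma yOp_eq_zero {j : ℕ} {f : ℝ → EE d →L[ℝ] V j} {a : ℝ} (hf : ∀ s, s ≤ a → f s = 0)
    {t : ℝ} (ht : t ≤ a) (ha : 0 ≤ a) :  yOp F j f t = 0 := by
  have : (∫ s in (0 : ℝ)..t, (F.Zi j s).comp (f s)) = ∫ _ in (0 : ℝ)..t, (0 : EE d →L[ℝ] V j) := by
    refine integral_congr fun s hs => ?_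
    have hs' : s ≤ a := hs.2.trans (max_le ha ht)
    rw [hf s hs', ContinuousLinearMap.comp_zero]
  simp [yOp, this]

lemma norm_comp_integral_apply_le {j i : ℕ} {g : ℝ → EE d →L[ℝ] V j} (hg : Continuous g)
    (T : Op j i) {a b : ℝ} (hab : a ≤ b) {h : ℝ → ℝ} (hh : Continuous h) (x : EE d)
    (hbd : ∀ s ∈ Set.Ioc a b, ‖T (g s x)‖ ≤ h s) :
    ‖T ((∫ s in a..b, g s) x)‖ ≤ ∫ s in a..b, h s := by
  rw [ContinuousLinearMap.intervalIntegral_apply (hg.intervalIntegrable a b),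
    ← T.intervalIntegral_comp_comm ((hg.clm_apply continuous_const).intervalIntegrable a b)]
  exact norm_integral_le_of_norm_le hab (ae_of_all _ hbd) (hh.intervalIntegrable a b)

lemma integral_exp_le {c : ℝ} (hc : 0 < c) (t : ℝ) :
    (∫ s in (0 : ℝ)..t, Real.exp (-c * (t - s))) ≤ 1 / c := by
  have h : ∀ s, HasDerivAt (fun r => Real.exp (-c * (t - r)) / c) (Real.exp (-c * (t - s))) s := by
    intro s
    have h1 : HasDerivAt (fun r => -c * (t - r)) c s := by
      simpa using ((hasDerivAt_id s).const_sub t).const_mul (-c)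
    exact (h1.exp.div_const c).congr_deriv (by field_simp)
  rw [integral_eq_sub_of_hasDerivAt (fun s _ => h s)
    ((by fun_prop : Continuous fun s => Real.exp (-c * (t - s))).intervalIntegrable _ _)]
  simp only [sub_self, mul_zero, Real.exp_zero]
  have : 0 ≤ Real.exp (-c * (t - 0)) / c := by positivity
  linarith

variable {N : ℝ → EE d →L[ℝ] EE d'} {κ : ℝ → ℝ}

lemma norm_yOp_le {j : ℕ} {f : ℝ → EE d →L[ℝ] V j} (hf : Continuous f)
    (hκ : ∀ s t, |κ s - κ t| ≤ |s - t| / 4)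
    (hN : ∀ t s, s ≤ t → ∀ x, ‖N s x‖ ≤ C.K * Real.exp (-(1 / 2) * (t - s)) * ‖N t x‖)
    (hf0 : ∀ s ≤ (0 : ℝ), f s = 0) {G : ℝ} (hG : 0 ≤ G)
    (hfb : ∀ s x, ‖f s x‖ ≤ G * Real.exp (-(κ s / 2)) * ‖N s x‖) (t : ℝ) (x : EE d) :
    ‖yOp F j f t x‖ ≤ C.K * C.K * G / (1 + C.μ * j) * Real.exp (-(κ t / 2)) * ‖N t x‖ := by
  have hK : 0 ≤ C.K := zero_le_one.trans C.one_le_K
  have hc : (0 : ℝ) < 1 + C.μ * j := by have := C.μ_pos; positivity
  rcases lt_or_ge t 0 with h | h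
  · rw [yOp_eq_zero hf0 h.le le_rfl, zero_apply, norm_zero]
    positivity
  have hg : Continuous fun s => (F.Zi j s).comp (f s) := (F.Zi_cont j).clm_comp hf
  simp only [yOp, neg_apply, ContinuousLinearMap.comp_apply, norm_neg]
  set A : ℝ := C.K * C.K * G * Real.exp (-(κ t / 2)) * ‖N t x‖ with hA
  have hb : ∀ s ∈ Set.Ioc 0 t, ‖F.Z j t ((F.Zi j s).comp (f s) x)‖ ≤
      A * Real.exp (-(1 + C.μ * j) * (t - s)) := by
    intro s hs
    have h1 : ‖F.Z j t (F.Zi j s (f s x))‖ ≤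
        C.K * Real.exp (-(1 + C.μ * j) * (t - s)) * ‖f s x‖ :=
      ((F.Z j t).comp (F.Zi j s)).le_of_opNorm_le (F.past_le j t s hs.2) (f s x)
    have h2 : Real.exp (-(κ s / 2)) * Real.exp (-(1 / 2) * (t - s)) ≤ Real.exp (-(κ t / 2)) := by
      rw [← Real.exp_add, Real.exp_le_exp]
      have h3 := (abs_le.1 (hκ s t)).1
      have h4 : |s - t| = t - s := by rw [abs_sub_comm, abs_of_nonneg (sub_nonneg.2 hs.2)]
      rw [h4] at h3
      have := sub_nonneg.2 hs.2
      linarith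
    refine h1.trans ?_
    calc C.K * Real.exp (-(1 + C.μ * j) * (t - s)) * ‖f s x‖
        ≤ C.K * Real.exp (-(1 + C.μ * j) * (t - s)) * (G * Real.exp (-(κ s / 2)) *
            (C.K * Real.exp (-(1 / 2) * (t - s)) * ‖N t x‖)) :=
          mul_le_mul_of_nonneg_left ((hfb s x).trans
            (mul_le_mul_of_nonneg_left (hN t s hs.2 x) (by positivity))) (by positivity)
      _ = C.K * C.K * G * ‖N t x‖ * Real.exp (-(1 + C.μ * j) * (t - s)) *
            (Real.exp (-(κ s / 2)) * Real.exp (-(1 / 2) * (t - s))) := by ring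
      _ ≤ C.K * C.K * G * ‖N t x‖ * Real.exp (-(1 + C.μ * j) * (t - s)) *
            Real.exp (-(κ t / 2)) := mul_le_mul_of_nonneg_left h2 (by positivity)
      _ = A * Real.exp (-(1 + C.μ * j) * (t - s)) := by rw [hA]; ring
  refine (norm_comp_integral_apply_le hg _ h (by fun_prop) x hb).trans ?_
  rw [intervalIntegral.integral_const_mul]
  refine le_of_le_of_eq (mul_le_mul_of_nonneg_left (integral_exp_le hc t) (by positivity)) ?_
  rw [hA]; ring

lemma integrableOn_uTwo {j : ℕ} (hj : C.J ≤ j) {y : ℝ → EE d →L[ℝ] V j} (hy : Continuous y)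
    (hN : ∀ t s, t ≤ s → ∀ x, ‖N s x‖ ≤ C.K * Real.exp (C.Λ * (s - t)) * ‖N t x‖)
    (hκ0 : ∀ t, 0 ≤ κ t) {Y : ℝ} (hY : 0 ≤ Y)
    (hyb : ∀ s x, ‖y s x‖ ≤ Y * Real.exp (-(κ s / 2)) * ‖N s x‖) (t : ℝ) :
    IntegrableOn (fun s => (F.Φi j s).comp (y s)) (Set.Ioi t) := by
  have hK : 0 ≤ C.K := zero_le_one.trans C.one_le_K
  set A : ℝ := ‖F.Φi j t‖ * C.K * (Y * C.K * ‖N t‖) with hA
  have hneg : -(1 + C.μ * j) < 0 := by
    have : (0 : ℝ) ≤ C.μ * j := mul_nonneg C.μ_pos.le j.cast_nonneg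
    linarith
  refine Integrable.mono' ((integrableOn_exp_mul_Ioi hneg t).const_mul
      (A * Real.exp ((1 + C.μ * j) * t))) ((continuous_Φi j).clm_comp hy).aestronglyMeasurable ?_
  filter_upwards [ae_restrict_mem measurableSet_Ioi] with s hs
  have hs' : t ≤ s := le_of_lt hs
  have h1 : ‖F.Φi j s‖ ≤ ‖F.Φi j t‖ * (C.K * Real.exp (-(C.Λ + 1 + C.μ * j) * (s - t))) := by
    have he : F.Φi j s = (F.Φi j t).comp ((F.Φ j t).comp (F.Φi j s)) := by
      ext1 v; simp [Φi_Φ_apply]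
    rw [he]
    exact (ContinuousLinearMap.opNorm_comp_le _ _).trans
      (mul_le_mul_of_nonneg_left (F.future_le j hj t s hs') (norm_nonneg _))
  have h2 : ‖y s‖ ≤ Y * C.K * Real.exp (C.Λ * (s - t)) * ‖N t‖ := by
    refine ContinuousLinearMap.opNorm_le_bound _ (by positivity) fun x => (hyb s x).trans ?_
    calc Y * Real.exp (-(κ s / 2)) * ‖N s x‖
        ≤ Y * 1 * (C.K * Real.exp (C.Λ * (s - t)) * (‖N t‖ * ‖x‖)) := by
          refine mul_le_mul (mul_le_mul_of_nonneg_left ?_ hY) ((hN t s hs' x).trans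
            (mul_le_mul_of_nonneg_left ((N t).le_opNorm x) (by positivity))) (norm_nonneg _)
            (by positivity)
          exact Real.exp_le_one_iff.2 (by linarith [hκ0 s])
      _ = Y * C.K * Real.exp (C.Λ * (s - t)) * ‖N t‖ * ‖x‖ := by ring
  refine (ContinuousLinearMap.opNorm_comp_le _ _).trans ?_
  refine (mul_le_mul h1 h2 (norm_nonneg _) (by positivity)).trans_eq ?_
  have he : Real.exp (-(C.Λ + 1 + C.μ * j) * (s - t)) * Real.exp (C.Λ * (s - t)) =
      Real.exp ((1 + C.μ * j) * t) * Real.exp (-(1 + C.μ * j) * s) := by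
    rw [← Real.exp_add, ← Real.exp_add]; ring_nf
  linear_combination A * he

lemma hasDerivAt_uTwo {j : ℕ} {y : ℝ → EE d →L[ℝ] V j} (hy : Continuous y)
    (hint : ∀ t, IntegrableOn (fun s => (F.Φi j s).comp (y s)) (Set.Ioi t)) (t : ℝ) :
    HasDerivAt (uTwo F j y) ((F.Pj j t).comp (uTwo F j y t) + y t) t := by
  have hg : Continuous fun s => (F.Φi j s).comp (y s) := (continuous_Φi j).clm_comp hy
  have he : ∀ r, (∫ s in Set.Ioi r, (F.Φi j s).comp (y s)) =
      (∫ s in Set.Ioi (0 : ℝ), (F.Φi j s).comp (y s)) -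
        ∫ s in (0 : ℝ)..r, (F.Φi j s).comp (y s) := fun r =>
    eq_sub_of_add_eq' (integral_interval_add_Ioi (hint 0) (hint r))
  have hI : HasDerivAt (fun r => ∫ s in Set.Ioi r, (F.Φi j s).comp (y s))
      (-((F.Φi j t).comp (y t))) t := by
    rw [funext he]
    exact (hasDerivAt_integral hg 0 t).const_sub _
  refine (((F.deriv_Φ j t).clm_comp hI).neg).congr_deriv ?_
  ext1 x
  simp [uTwo, Φ_Φi_apply]
  abel

lemma norm_uTwo_le {j : ℕ} (hj : C.J ≤ j) {y : ℝ → EE d →L[ℝ] V j}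
    (hκ : ∀ s t, |κ s - κ t| ≤ |s - t| / 4)
    (hN : ∀ t s, t ≤ s → ∀ x, ‖N s x‖ ≤ C.K * Real.exp (C.Λ * (s - t)) * ‖N t x‖)
    (hint : ∀ t, IntegrableOn (fun s => (F.Φi j s).comp (y s)) (Set.Ioi t))
    {Y : ℝ} (hY : 0 ≤ Y) (hyb : ∀ s x, ‖y s x‖ ≤ Y * Real.exp (-(κ s / 2)) * ‖N s x‖)
    (t : ℝ) (x : EE d) :
    ‖uTwo F j y t x‖ ≤ C.K * C.K * Y / (1 / 2 + C.μ * j) * Real.exp (-(κ t / 2)) * ‖N t x‖ := by
  have hK : 0 ≤ C.K := zero_le_one.trans C.one_le_K
  have hc : (0 : ℝ) < 1 / 2 + C.μ * j := by have := C.μ_pos; positivity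
  have hneg : -(1 / 2 + C.μ * (j : ℝ)) < 0 := by linarith
  set A : ℝ := C.K * C.K * Y * Real.exp (-(κ t / 2)) * ‖N t x‖ with hA
  simp only [uTwo, neg_apply, ContinuousLinearMap.comp_apply, norm_neg]
  rw [ContinuousLinearMap.integral_apply (hint t),
    ← (F.Φ j t).integral_comp_comm ((hint t).apply_continuousLinearMap x)]
  refine (MeasureTheory.norm_integral_le_of_norm_le (g := fun s =>
      A * (Real.exp ((1 / 2 + C.μ * j) * t) * Real.exp (-(1 / 2 + C.μ * j) * s)))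
    (((integrableOn_exp_mul_Ioi hneg t).const_mul _).const_mul _) ?_).trans ?_
  · filter_upwards [ae_restrict_mem measurableSet_Ioi] with s hs
    have hs' : t ≤ s := le_of_lt hs
    have h1 : ‖F.Φ j t (F.Φi j s (y s x))‖ ≤
        C.K * Real.exp (-(C.Λ + 1 + C.μ * j) * (s - t)) * ‖y s x‖ :=
      ((F.Φ j t).comp (F.Φi j s)).le_of_opNorm_le (F.future_le j hj t s hs') (y s x)
    have h2 : Real.exp (-(C.Λ + 1 + C.μ * j) * (s - t)) * Real.exp (C.Λ * (s - t)) *
        Real.exp (-(κ s / 2)) ≤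
          Real.exp ((1 / 2 + C.μ * j) * t) * Real.exp (-(1 / 2 + C.μ * j) * s) *
            Real.exp (-(κ t / 2)) := by
      simp only [← Real.exp_add, Real.exp_le_exp]
      have h3 := (abs_le.1 (hκ s t)).1
      rw [abs_of_nonneg (sub_nonneg.2 hs')] at h3
      have := sub_nonneg.2 hs'
      linarith
    refine h1.trans ?_
    calc C.K * Real.exp (-(C.Λ + 1 + C.μ * j) * (s - t)) * ‖y s x‖
        ≤ C.K * Real.exp (-(C.Λ + 1 + C.μ * j) * (s - t)) * (Y * Real.exp (-(κ s / 2)) *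
            (C.K * Real.exp (C.Λ * (s - t)) * ‖N t x‖)) :=
          mul_le_mul_of_nonneg_left ((hyb s x).trans
            (mul_le_mul_of_nonneg_left (hN t s hs' x) (by positivity))) (by positivity)
      _ = C.K * C.K * Y * ‖N t x‖ * (Real.exp (-(C.Λ + 1 + C.μ * j) * (s - t)) *
            Real.exp (C.Λ * (s - t)) * Real.exp (-(κ s / 2))) := by ring
      _ ≤ C.K * C.K * Y * ‖N t x‖ * (Real.exp ((1 / 2 + C.μ * j) * t) *
            Real.exp (-(1 / 2 + C.μ * j) * s) * Real.exp (-(κ t / 2))) :=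
          mul_le_mul_of_nonneg_left h2 (by positivity)
      _ = _ := by rw [hA]; ring
  · rw [MeasureTheory.integral_const_mul, MeasureTheory.integral_const_mul,
      integral_exp_mul_Ioi hneg, mul_div_assoc', mul_neg, ← Real.exp_add,
      show (1 / 2 + C.μ * j) * t + -(1 / 2 + C.μ * (j : ℝ)) * t = 0 by ring, Real.exp_zero]
    rw [hA, neg_div_neg_eq]
    exact le_of_eq (by ring)

end

end Vale.Agent.P225.FP
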