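import Vale.Agent.P225.FP.Defs

/-!
P225, fixed point: a continuous left inverse of a continuous path of injective maps which loses
nothing in norm, and the fixed point principle used for the contraction.
-/

namespace Vale.Agent.P225.FP

open scoped RealInnerProductSpace ContDiff

noncomputable section

variable {d d' : ℕ}

/-- The Gram operator. -/
def gram (N : EE d →L[ℝ] EE d') : EE d →L[ℝ] EE d :=
  (ContinuousLinearMap.adjoint N).comp N

lemma inner_gram (N : EE d →L[ℝ] EE d') (x y : EE d) : ⟪y, gram N x⟫ = ⟪N y, N x⟫ := by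
  rw [gram, ContinuousLinearMap.comp_apply, ContinuousLinearMap.adjoint_inner_right]

lemma isUnit_gram {N : EE d →L[ℝ] EE d'} (h : ∀ x, N x = 0 → x = 0) : IsUnit (gram N) := by
  rw [ContinuousLinearMap.isUnit_iff_bijective]
  have hinj : Function.Injective (gram N) := by
    intro x y hxy
    have h0 : gram N (x - y) = 0 := by rw [map_sub, hxy, sub_self]
    have h1 : ⟪N (x - y), N (x - y)⟫ = 0 := by rw [← inner_gram, h0, inner_zero_right]
    exact sub_eq_zero.mp (h _ (inner_self_eq_zero.mp h1))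
  exact ⟨hinj, (LinearMap.injective_iff_surjective
    (f := (gram N : EE d →ₗ[ℝ] EE d))).mp hinj⟩

/-- The orthogonal left inverse. -/
def leftInv (N : EE d →L[ℝ] EE d') : EE d' →L[ℝ] EE d :=
  (Ring.inverse (gram N)).comp (ContinuousLinearMap.adjoint N)

lemma leftInv_comp {N : EE d →L[ℝ] EE d'} (h : ∀ x, N x = 0 → x = 0) :
    (leftInv N).comp N = ContinuousLinearMap.id ℝ (EE d) := by
  have := Ring.inverse_mul_cancel (gram N) (isUnit_gram h)
  rw [leftInv, ContinuousLinearMap.comp_assoc]
  exact this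

lemma norm_comp_leftInv {N : EE d →L[ℝ] EE d'} (h : ∀ x, N x = 0 → x = 0) (y : EE d') :
    ‖N (leftInv N y)‖ ≤ ‖y‖ := by
  set x := leftInv N y with hx
  have hg : gram N x = ContinuousLinearMap.adjoint N y := by
    have h1 := Ring.mul_inverse_cancel (gram N) (isUnit_gram h)
    have h2 := congrArg (fun T : EE d →L[ℝ] EE d => T (ContinuousLinearMap.adjoint N y)) h1
    simpa [hx, leftInv] using h2
  have h3 : ⟪N x, N x⟫ = ⟪N x, y⟫ := by
    rw [← inner_gram, hg, ContinuousLinearMap.adjoint_inner_right]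
  have h4 : ‖N x‖ * ‖N x‖ ≤ ‖N x‖ * ‖y‖ := by
    rw [← real_inner_self_eq_norm_mul_norm, h3]
    exact real_inner_le_norm _ _
  rcases (norm_nonneg (N x)).eq_or_lt with h5 | h5
  · rw [← h5]; exact norm_nonneg y
  · exact le_of_mul_le_mul_left h4 h5

lemma opNorm_comp_leftInv {N : EE d →L[ℝ] EE d'} (h : ∀ x, N x = 0 → x = 0)
    {G : Type*} [NormedAddCommGroup G] [NormedSpace ℝ G] (T : EE d →L[ℝ] G) {c : ℝ}
    (hc : 0 ≤ c) (hT : ∀ x, ‖T x‖ ≤ c * ‖N x‖) : ‖T.comp (leftInv N)‖ ≤ c :=
  ContinuousLinearMap.opNorm_le_bound _ hc fun y =>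
    (hT _).trans (mul_le_mul_of_nonneg_left (norm_comp_leftInv h y) hc)

lemma continuous_leftInv {N : ℝ → EE d →L[ℝ] EE d'} (hN : Continuous N)
    (h : ∀ t x, N t x = 0 → x = 0) : Continuous fun t => leftInv (N t) := by
  have ha : Continuous fun t => ContinuousLinearMap.adjoint (N t) :=
    (ContinuousLinearMap.adjoint (𝕜 := ℝ) (E := EE d) (F := EE d')).continuous.comp hN
  have hg : Continuous fun t => gram (N t) := ha.clm_comp hN
  have hi : Continuous fun t => Ring.inverse (gram (N t)) := by
    refine continuous_iff_continuousAt.2 fun t => ?_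
    obtain ⟨w, hw⟩ := isUnit_gram (h t)
    have := NormedRing.inverse_continuousAt w
    rw [hw] at this
    exact ContinuousAt.comp (x := t) this hg.continuousAt
  exact hi.clm_comp ha

/-- A self map of a closed ball in a complete space which halves distances has a fixed point. -/
lemma exists_fixed {α : Type*} [NormedAddCommGroup α] [CompleteSpace α] (r : ℝ) (hr : 0 ≤ r)
    (f : α → α) (hmap : ∀ x, ‖x‖ ≤ r → ‖f x‖ ≤ r)
    (hlip : ∀ x y, ‖x‖ ≤ r → ‖y‖ ≤ r → ‖f x - f y‖ ≤ 1 / 2 * ‖x - y‖) :
    ∃ x, ‖x‖ ≤ r ∧ f x = x := by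
  set S : Set α := Metric.closedBall 0 r
  have hS : IsClosed S := Metric.isClosed_closedBall
  have : CompleteSpace S := hS.completeSpace_coe
  have : Nonempty S := ⟨⟨0, by simpa [S] using hr⟩⟩
  let g : S → S := fun x => ⟨f x, by
    have := x.2
    simp only [S, Metric.mem_closedBall, dist_zero_right] at this ⊢
    exact hmap _ this⟩
  have hg : ContractingWith (1 / 2 : NNReal) g := by
    refine ⟨by norm_num, LipschitzWith.of_dist_le_mul fun x y => ?_⟩
    have hx := x.2
    have hy := y.2
    simp only [S, Metric.mem_closedBall, dist_zero_right] at hx hy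
    rw [Subtype.dist_eq, Subtype.dist_eq, dist_eq_norm, dist_eq_norm]
    simpa [g] using hlip _ _ hx hy
  refine ⟨(ContractingWith.fixedPoint g hg : S), ?_, ?_⟩
  · have h := Metric.mem_closedBall.1 (ContractingWith.fixedPoint g hg : S).2
    rwa [dist_zero_right] at h
  · exact congrArg Subtype.val hg.fixedPoint_isFixedPt

end

end Vale.Agent.P225.FP
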