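import Vale.Agent.P225.FP.Map

/-!
P225, fixed point: existence of amplitudes and solutions.
-/

namespace Vale.Agent.P225.FP

open MeasureTheory intervalIntegral Filter Topology
open scoped RealInnerProductSpace ContDiff ENNReal BoundedContinuousFunction

noncomputable section

variable {H : Harm} {sh : Shape} {C : Consts} {F : Flow H sh C} {P : Pulses} {d d' : ℕ} {ε : ℝ}
  {pl : Plan F P d d' ε} {Kf : ℝ}

/-- The hypotheses of the contraction. -/
structure Small (pl : Plan F P d d' ε) (Kf : ℝ) : Prop where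
  bound : ForceBound H P C Kf
  nonneg : 0 ≤ ε
  le_one : ε ≤ 1
  radius : 2 * scale C Kf * ε ≤ 1
  jump_small : ε * jumpConst C Kf * (refConst C + 4) ≤ 1 / 8

namespace Small

variable (hp : Small pl Kf)

include hp

lemma L_pos : 0 < scale C Kf := pl.scale_pos hp.bound

lemma jumpConst_nonneg : 0 ≤ jumpConst C Kf := by
  have := pl.K_nonneg; have := hp.bound.1
  unfold jumpConst; positivity

/-- The target of the amplitudes. -/
def newAmp (z : AmpSpace P × ModeSpace d') (n : ℕ) : Fin P.n → ℝ :=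
  (scale C Kf * Real.exp (pl.κ (pl.a (pl.idx n)))) •
    pl.R (pl.idx n) (fun j => (pl.X (pl.idx n) j - pl.X (pl.idx n + 1) j) -
      pl.devJump (scale C Kf) z.1 z.2 (pl.idx n) j) n

omit hp in
lemma abs_R_sub (c : ℕ) (X Y : (j : ℕ) → EE d →L[ℝ] V j) (n : ℕ) (l : Fin P.n) :
    pl.R c (fun j => X j - Y j) n l = pl.R c X n l - pl.R c Y n l := by
  have : (fun j => X j - Y j) = X - Y := rfl
  rw [this, map_sub]; rfl

lemma R_devJump_le (u : AmpSpace P) (v : ModeSpace d') (n : ℕ) (l : Fin P.n) :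
    |pl.R (pl.idx n) (pl.devJump (scale C Kf) u v (pl.idx n)) n l| ≤
      ε * jumpConst C Kf * (‖u‖ / scale C Kf) * (refConst C * ε + 2 * ‖v‖) *
        Real.exp (-pl.κ (pl.a (pl.idx n))) := by
  have := hp.L_pos
  have h1 := pl.modeLe_tot hp.le_one v
  exact pl.R_jump_le hp.bound (by positivity)
    (by have := pl.refConst_nonneg; have := hp.nonneg; positivity) (pl.ampLe_amp hp.L_pos u)
    (fun i => (h1.cont_u i).sub (pl.continuous_frozen _ i))
    (fun i => (h1.cont_du i).sub (pl.continuous_frozenD _ i)) (pl.idx n)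
    (fun r hr i x => pl.dev_mode_le hp.nonneg v hr i x) n l

lemma norm_newAmp_le (z : AmpSpace P × ModeSpace d') (n : ℕ) :
    ‖newAmp (pl := pl) (Kf := Kf) z n‖ ≤ scale C Kf * ε *
      (1 + jumpConst C Kf * (‖z.1‖ / scale C Kf) * (refConst C * ε + 2 * ‖z.2‖)) := by
  have hL := hp.L_pos
  have hε := hp.nonneg
  have hj := hp.jumpConst_nonneg
  have := pl.refConst_nonneg
  refine (pi_norm_le_iff_of_nonneg (by positivity)).2 fun l => ?_
  set E := Real.exp (pl.κ (pl.a (pl.idx n))) with hE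
  have h1 := pl.target_small (pl.idx n) n l
  have h2 := hp.R_devJump_le z.1 z.2 n l
  simp only [newAmp, Pi.smul_apply, smul_eq_mul, Real.norm_eq_abs, abs_mul,
    abs_of_pos (Real.exp_pos _), abs_of_pos hL]
  rw [abs_R_sub]
  refine (mul_le_mul_of_nonneg_left ((abs_sub _ _).trans (add_le_add h1 h2))
    (by positivity)).trans (le_of_eq ?_)
  have hee : E * Real.exp (-pl.κ (pl.a (pl.idx n))) = 1 := by
    rw [hE, ← Real.exp_add, add_neg_cancel, Real.exp_zero]
  linear_combination (scale C Kf * ε * (1 + jumpConst C Kf * (‖z.1‖ / scale C Kf) *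
    (refConst C * ε + 2 * ‖z.2‖))) * hee

/-- The new response of `u`, relative and scaled. -/
def newU (z : AmpSpace P × ModeSpace d') (j : ℕ) (t : ℝ) : EE d' →L[ℝ] V j :=
  (C.W ^ j * ((j : ℝ) + 1) * Real.exp (pl.κ t / 2)) •
    (pl.uv (pl.amp (scale C Kf) z.1) (pl.totU z.2) (pl.totD z.2) j t).comp (leftInv (pl.N t))

/-- The new response of `u'`, relative and scaled. -/
def newD (z : AmpSpace P × ModeSpace d') (j : ℕ) (t : ℝ) : EE d' →L[ℝ] V j :=
  (C.W ^ j * Real.exp (pl.κ t / 2)) •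
    (pl.dv (pl.amp (scale C Kf) z.1) (pl.totU z.2) (pl.totD z.2) j t).comp (leftInv (pl.N t))

/-- A bound for the new response. -/
def newBound (C : Consts) (Kf : ℝ) (z : AmpSpace P × ModeSpace d') : ℝ :=
  respConst C Kf * (‖z.1‖ / scale C Kf) * (refConst C + 2 * ‖z.2‖)

omit hp in
lemma norm_scaled_le {j : ℕ} {t a : ℝ} (ha : 0 < a) (T : EE d →L[ℝ] V j) {B : ℝ} (hB : 0 ≤ B)
    (hT : ∀ x, a * ‖T x‖ ≤ B * (Real.exp (-(pl.κ t / 2)) * ‖pl.N t x‖)) :
    ‖(a * Real.exp (pl.κ t / 2)) • T.comp (leftInv (pl.N t))‖ ≤ B := by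
  rw [norm_smul, Real.norm_eq_abs, abs_of_pos (by positivity)]
  have h := opNorm_comp_leftInv (pl.N_inj t) T (c := B * Real.exp (-(pl.κ t / 2)) / a)
    (by positivity) (fun x => by
      rw [div_mul_eq_mul_div, le_div_iff₀ ha, mul_comm]
      exact (hT x).trans_eq (by ring))
  refine (mul_le_mul_of_nonneg_left h (by positivity)).trans (le_of_eq ?_)
  have : Real.exp (pl.κ t / 2) * Real.exp (-(pl.κ t / 2)) = 1 := by
    rw [← Real.exp_add, add_neg_cancel, Real.exp_zero]
  field_simp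
  linear_combination B * this

lemma norm_new_le (z : AmpSpace P × ModeSpace d') (j : ℕ) (t : ℝ) :
    ‖(newU (pl := pl) (Kf := Kf) z j t, newD (pl := pl) (Kf := Kf) z j t)‖ ≤ newBound C Kf z := by
  have hL := hp.L_pos
  have hW := pl.W_pos
  have := pl.respConst_nonneg hp.bound
  have := pl.refConst_nonneg
  have hB : 0 ≤ newBound C Kf z := by unfold newBound; positivity
  have h := fun x => pl.resp_le hp.bound (s := ‖z.1‖ / scale C Kf)
    (B := refConst C + 2 * ‖z.2‖) (by positivity) (by positivity) (pl.ampLe_amp hL z.1)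
    (pl.modeLe_tot hp.le_one z.2) j t x
  refine norm_prod_le_iff.2
    ⟨norm_scaled_le (by positivity) _ hB fun x => ?_, norm_scaled_le (by positivity) _ hB fun x => ?_⟩
  · refine le_trans ?_ (h x)
    rw [mul_assoc (C.W ^ j)]
    exact mul_le_mul_of_nonneg_left (le_add_of_nonneg_right (norm_nonneg _)) (by positivity)
  · refine le_trans ?_ (h x)
    exact mul_le_mul_of_nonneg_left (le_add_of_nonneg_left (by positivity)) (by positivity)

lemma continuous_new (z : AmpSpace P × ModeSpace d') (j : ℕ) :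
    Continuous fun t => (newU (pl := pl) (Kf := Kf) z j t, newD (pl := pl) (Kf := Kf) z j t) := by
  have hL := hp.L_pos
  have := pl.refConst_nonneg
  have := pl.κ_cont
  have hi := continuous_leftInv pl.N_cont pl.N_inj
  have hu := pl.continuous_uv hp.bound (s := ‖z.1‖ / scale C Kf)
    (B := refConst C + 2 * ‖z.2‖) (by positivity) (by positivity) (pl.ampLe_amp hL z.1)
    (pl.modeLe_tot hp.le_one z.2) j
  have hd := pl.continuous_dv hp.bound (s := ‖z.1‖ / scale C Kf)
    (B := refConst C + 2 * ‖z.2‖) (by positivity) (by positivity) (pl.ampLe_amp hL z.1)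
    (pl.modeLe_tot hp.le_one z.2) j
  exact ((by fun_prop : Continuous fun t => C.W ^ j * ((j : ℝ) + 1) * Real.exp (pl.κ t / 2)).smul
    (hu.clm_comp hi)).prodMk
    ((by fun_prop : Continuous fun t => C.W ^ j * Real.exp (pl.κ t / 2)).smul (hd.clm_comp hi))

/-- The map whose fixed point is wanted. -/
def step (z : AmpSpace P × ModeSpace d') : AmpSpace P × ModeSpace d' :=
  (⟨fun n => newAmp (pl := pl) (Kf := Kf) z n,
      memℓp_infty ⟨_, Set.forall_mem_range.2 fun n => hp.norm_newAmp_le z n⟩⟩,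
    ⟨fun j => BoundedContinuousFunction.ofNormedAddCommGroup _ (hp.continuous_new z j) _
        (hp.norm_new_le z j),
      memℓp_infty ⟨newBound C Kf z, Set.forall_mem_range.2 fun j =>
        BoundedContinuousFunction.norm_ofNormedAddCommGroup_le (hp.continuous_new z j)
          (by
            have := hp.L_pos
            have := pl.respConst_nonneg hp.bound
            have := pl.refConst_nonneg
            unfold newBound; positivity) _⟩⟩)

lemma step_le {z : AmpSpace P × ModeSpace d'} (hz : ‖z‖ ≤ 2 * scale C Kf * ε) :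
    ‖hp.step z‖ ≤ 2 * scale C Kf * ε := by
  have hL := hp.L_pos
  have hε := hp.nonneg
  have hR := pl.refConst_nonneg
  have hQ := pl.respConst_nonneg hp.bound
  have hJ := hp.jumpConst_nonneg
  have h1 : ‖z.1‖ / scale C Kf ≤ 2 * ε := by
    rw [div_le_iff₀ hL]; linarith [norm_fst_le z]
  have h1' : 0 ≤ ‖z.1‖ / scale C Kf := by positivity
  have h2 : ‖z.2‖ ≤ 1 := (norm_snd_le z).trans (hz.trans hp.radius)
  refine norm_prod_le_iff.2 ⟨?_, ?_⟩
  · refine lp.norm_le_of_forall_le (by positivity) fun n => (hp.norm_newAmp_le z n).trans ?_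
    have : jumpConst C Kf * (‖z.1‖ / scale C Kf) * (refConst C * ε + 2 * ‖z.2‖) ≤ 1 := by
      calc jumpConst C Kf * (‖z.1‖ / scale C Kf) * (refConst C * ε + 2 * ‖z.2‖)
          ≤ jumpConst C Kf * (2 * ε) * (refConst C + 4) := by
            refine mul_le_mul (mul_le_mul_of_nonneg_left h1 hJ) ?_ (by positivity) (by positivity)
            nlinarith [hp.le_one]
        _ ≤ 1 := by linarith [hp.jump_small]
    nlinarith [mul_nonneg hL.le hε]
  · refine lp.norm_le_of_forall_le (by positivity) fun j =>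
      (BoundedContinuousFunction.norm_ofNormedAddCommGroup_le (hp.continuous_new z j)
        (show 0 ≤ newBound C Kf z by unfold newBound; positivity) (hp.norm_new_le z j)).trans ?_
    calc newBound C Kf z ≤ respConst C Kf * (2 * ε) * (refConst C + 2) := by
          unfold newBound
          refine mul_le_mul (mul_le_mul_of_nonneg_left h1 hQ) (by linarith) (by positivity)
            (by positivity)
      _ ≤ 2 * scale C Kf * ε := by
          rw [scale]
          nlinarith [mul_nonneg (mul_nonneg hQ hε) (by linarith : (0 : ℝ) ≤ refConst C + 2)]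

omit hp in
lemma amp_sub (x y : AmpSpace P) :
    pl.amp (scale C Kf) x - pl.amp (scale C Kf) y = pl.amp (scale C Kf) (x - y) := by
  ext n l
  simp [Plan.amp]
  ring

omit hp in
lemma tot_sub (x y : ModeSpace d') :
    pl.totU x - pl.totU y = pl.vU (x - y) ∧ pl.totD x - pl.totD y = pl.vD (x - y) := by
  constructor <;> ext1 j <;> ext1 t <;> ext1 w <;>
    simp [Plan.totU, Plan.totD, Plan.vU, Plan.vD, ← smul_sub]

omit hp in
lemma jump_sub {j : ℕ} (hj1 : 1 ≤ j) (hj2 : j < C.J) {θ₁ θ₂ θ₃ : ℕ → Fin P.n → ℝ}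
    {U₁ D₁ U₂ D₂ U₃ D₃ : (j : ℕ) → ℝ → EE d →L[ℝ] V j}
    (hU₂ : ∀ i, Continuous (U₂ i)) (hD₂ : ∀ i, Continuous (D₂ i))
    (hU₃ : ∀ i, Continuous (U₃ i)) (hD₃ : ∀ i, Continuous (D₃ i))
    (hf : ∀ t, forceOp H sh pl.pos θ₁ U₁ D₁ j t =
      forceOp H sh pl.pos θ₂ U₂ D₂ j t - forceOp H sh pl.pos θ₃ U₃ D₃ j t) (a b : ℝ) :
    jump F pl.pos θ₁ a b U₁ D₁ j =
      jump F pl.pos θ₂ a b U₂ D₂ j - jump F pl.pos θ₃ a b U₃ D₃ j := by
  unfold jump
  rw [← intervalIntegral.integral_sub
    ((pl.continuous_Ω_force hj1 hj2 θ₂ hU₂ hD₂).intervalIntegrable _ _)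
    ((pl.continuous_Ω_force hj1 hj2 θ₃ hU₃ hD₃).intervalIntegrable _ _)]
  exact integral_congr fun q _ => by simp only [hf, ContinuousLinearMap.comp_sub]

lemma continuous_dev (v : ModeSpace d') (c : ℕ) :
    (∀ i, Continuous ((pl.totU v - frozen F (pl.X c)) i)) ∧
      ∀ i, Continuous ((pl.totD v - frozenD F (pl.X c)) i) :=
  ⟨fun i => ((pl.modeLe_tot hp.le_one v).cont_u i).sub (pl.continuous_frozen c i),
    fun i => ((pl.modeLe_tot hp.le_one v).cont_du i).sub (pl.continuous_frozenD c i)⟩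

lemma devJump_sub (x y : AmpSpace P × ModeSpace d') (c : ℕ) :
    (fun j => pl.devJump (scale C Kf) x.1 x.2 c j - pl.devJump (scale C Kf) y.1 y.2 c j) =
      (fun j => if 1 ≤ j ∧ j < C.J then
        jump F pl.pos (pl.amp (scale C Kf) (x.1 - y.1)) (pl.a c) (pl.b c)
          (pl.totU x.2 - frozen F (pl.X c)) (pl.totD x.2 - frozenD F (pl.X c)) j else 0) +
      (fun j => if 1 ≤ j ∧ j < C.J then
        jump F pl.pos (pl.amp (scale C Kf) y.1) (pl.a c) (pl.b c)
          (pl.vU (x.2 - y.2)) (pl.vD (x.2 - y.2)) j else 0) := by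
  funext j
  simp only [Pi.add_apply]
  by_cases h : 1 ≤ j ∧ j < C.J
  · have e1 := jump_sub (pl := pl) h.1 h.2 (θ₁ := pl.amp (scale C Kf) (x.1 - y.1))
      (θ₂ := pl.amp (scale C Kf) x.1) (θ₃ := pl.amp (scale C Kf) y.1)
      (U₁ := pl.totU x.2 - frozen F (pl.X c)) (D₁ := pl.totD x.2 - frozenD F (pl.X c))
      (hp.continuous_dev x.2 c).1 (hp.continuous_dev x.2 c).2
      (hp.continuous_dev x.2 c).1 (hp.continuous_dev x.2 c).2
      (fun t => by
        rw [← amp_sub]
        exact forceOp_sub_amp pl.pos_start pl.pos_gap _ _ _ _ j t) (pl.a c) (pl.b c)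
    have e2 := jump_sub (pl := pl) h.1 h.2 (θ₁ := pl.amp (scale C Kf) y.1)
      (θ₂ := pl.amp (scale C Kf) y.1) (θ₃ := pl.amp (scale C Kf) y.1)
      (U₁ := pl.vU (x.2 - y.2)) (D₁ := pl.vD (x.2 - y.2))
      (hp.continuous_dev x.2 c).1 (hp.continuous_dev x.2 c).2
      (hp.continuous_dev y.2 c).1 (hp.continuous_dev y.2 c).2
      (fun t => by
        rw [← forceOp_sub_mode pl.pos_start pl.pos_gap, sub_sub_sub_cancel_right,
          sub_sub_sub_cancel_right, (tot_sub x.2 y.2).1, (tot_sub x.2 y.2).2]) (pl.a c) (pl.b c)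
    simp only [Plan.devJump, if_pos h, e1, e2]
    abel
  · simp [Plan.devJump, if_neg h]

lemma R_devJump_sub_le (x y : AmpSpace P × ModeSpace d') (n : ℕ) (l : Fin P.n) :
    |pl.R (pl.idx n) (fun j => pl.devJump (scale C Kf) x.1 x.2 (pl.idx n) j -
        pl.devJump (scale C Kf) y.1 y.2 (pl.idx n) j) n l| ≤
      ε * jumpConst C Kf * (‖x.1 - y.1‖ / scale C Kf) * (refConst C * ε + 2 * ‖x.2‖) *
          Real.exp (-pl.κ (pl.a (pl.idx n))) +
        ε * jumpConst C Kf * (‖y.1‖ / scale C Kf) * (2 * ‖x.2 - y.2‖) *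
          Real.exp (-pl.κ (pl.a (pl.idx n))) := by
  have hL := hp.L_pos
  have hε := hp.nonneg
  have hR := pl.refConst_nonneg
  rw [hp.devJump_sub, map_add, Pi.add_apply, Pi.add_apply]
  refine (abs_add_le _ _).trans (add_le_add ?_ ?_)
  · exact pl.R_jump_le hp.bound (by positivity) (by positivity) (pl.ampLe_amp hL (x.1 - y.1))
      (hp.continuous_dev x.2 _).1 (hp.continuous_dev x.2 _).2 _
      (fun r hr i w => pl.dev_mode_le hε x.2 hr i w) n l
  · have hv := pl.modeLe_v (x.2 - y.2)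
    exact pl.R_jump_le hp.bound (by positivity) (by positivity) (pl.ampLe_amp hL y.1)
      hv.cont_u hv.cont_du _
      (fun r hr i w => (pl.v_le _ i r w).trans (mul_le_mul_of_nonneg_right
        (by
          rw [mul_assoc (2 * ‖x.2 - y.2‖)]
          exact mul_le_mul_of_nonneg_left (pl.κ_half_window hr) (by positivity))
        (norm_nonneg _))) n l

lemma amp_lip {x y : AmpSpace P × ModeSpace d'} (hx : ‖x‖ ≤ 2 * scale C Kf * ε)
    (hy : ‖y‖ ≤ 2 * scale C Kf * ε) (n : ℕ) :
    ‖newAmp (pl := pl) (Kf := Kf) x n - newAmp (pl := pl) (Kf := Kf) y n‖ ≤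
      1 / 2 * ‖x - y‖ := by
  have hL := hp.L_pos
  have hε := hp.nonneg
  have hJ := hp.jumpConst_nonneg
  have hR := pl.refConst_nonneg
  have hx2 : ‖x.2‖ ≤ 1 := (norm_snd_le x).trans (hx.trans hp.radius)
  have hy1 : ‖y.1‖ ≤ 1 := (norm_fst_le y).trans (hy.trans hp.radius)
  have hn1 : ‖x.1 - y.1‖ ≤ ‖x - y‖ := norm_fst_le (x - y)
  have hn2 : ‖x.2 - y.2‖ ≤ ‖x - y‖ := norm_snd_le (x - y)
  refine (pi_norm_le_iff_of_nonneg (by positivity)).2 fun l => ?_
  have hb := hp.R_devJump_sub_le x y n l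
  set c := pl.idx n with hc
  rw [abs_R_sub] at hb
  have key : newAmp (pl := pl) (Kf := Kf) x n l - newAmp (pl := pl) (Kf := Kf) y n l =
      -(scale C Kf * Real.exp (pl.κ (pl.a c)) * (pl.R c (pl.devJump (scale C Kf) x.1 x.2 c) n l -
        pl.R c (pl.devJump (scale C Kf) y.1 y.2 c) n l)) := by
    simp only [newAmp, Pi.smul_apply, smul_eq_mul, ← hc]
    rw [abs_R_sub, abs_R_sub c _ (pl.devJump (scale C Kf) y.1 y.2 c)]
    ring
  rw [Pi.sub_apply, Real.norm_eq_abs, key, abs_neg, abs_mul, abs_of_pos (by positivity)]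
  refine (mul_le_mul_of_nonneg_left hb (by positivity)).trans ?_
  have hee : Real.exp (pl.κ (pl.a c)) * Real.exp (-pl.κ (pl.a c)) = 1 := by
    rw [← Real.exp_add, add_neg_cancel, Real.exp_zero]
  calc _ = ε * jumpConst C Kf * (‖x.1 - y.1‖ * (refConst C * ε + 2 * ‖x.2‖) +
        ‖y.1‖ * (2 * ‖x.2 - y.2‖)) *
          (Real.exp (pl.κ (pl.a c)) * Real.exp (-pl.κ (pl.a c))) := by
        field_simp
    _ ≤ ε * jumpConst C Kf * (‖x - y‖ * (refConst C + 2) + 1 * (2 * ‖x - y‖)) := by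
        rw [hee, mul_one]
        refine mul_le_mul_of_nonneg_left (add_le_add
          (mul_le_mul hn1 (by nlinarith [hp.le_one]) (by positivity) (norm_nonneg _))
          (mul_le_mul hy1 (by linarith) (by positivity) zero_le_one)) (by positivity)
    _ = ε * jumpConst C Kf * (refConst C + 4) * ‖x - y‖ := by ring
    _ ≤ 1 / 2 * ‖x - y‖ :=
        mul_le_mul_of_nonneg_right (by linarith [hp.jump_small]) (norm_nonneg _)

lemma resp_sub_le (x y : AmpSpace P × ModeSpace d') (j : ℕ) (t : ℝ) (w : EE d) :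
    C.W ^ j * (((j : ℝ) + 1) *
        ‖(pl.uv (pl.amp (scale C Kf) x.1) (pl.totU x.2) (pl.totD x.2) j t -
          pl.uv (pl.amp (scale C Kf) y.1) (pl.totU y.2) (pl.totD y.2) j t) w‖ +
        ‖(pl.dv (pl.amp (scale C Kf) x.1) (pl.totU x.2) (pl.totD x.2) j t -
          pl.dv (pl.amp (scale C Kf) y.1) (pl.totU y.2) (pl.totD y.2) j t) w‖) ≤
      (respConst C Kf * (‖x.1 - y.1‖ / scale C Kf) * (refConst C + 2 * ‖x.2‖) +
        respConst C Kf * (‖y.1‖ / scale C Kf) * (2 * ‖x.2 - y.2‖)) *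
        (Real.exp (-(pl.κ t / 2)) * ‖pl.N t w‖) := by
  have hL := hp.L_pos
  have hW := pl.W_pos
  have hR := pl.refConst_nonneg
  have mX := pl.modeLe_tot hp.le_one x.2
  have mY := pl.modeLe_tot hp.le_one y.2
  have hv := pl.modeLe_v (x.2 - y.2)
  have aX := pl.ampLe_amp hL x.1
  have aY := pl.ampLe_amp hL y.1
  have e1 := pl.uv_sub hp.bound (B₂ := refConst C + 2 * ‖x.2‖) (B₃ := refConst C + 2 * ‖x.2‖)
    (by positivity) (by positivity) (by positivity) (by positivity)
    (θ₁ := pl.amp (scale C Kf) (x.1 - y.1)) (U₁ := pl.totU x.2) (D₁ := pl.totD x.2)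
    mX.cont_u mX.cont_du aX mX aY mX
    (fun i s => by
      rw [← amp_sub]
      exact forceOp_sub_amp pl.pos_start pl.pos_gap _ _ _ _ i s) j t
  have e2 := pl.uv_sub hp.bound (B₂ := refConst C + 2 * ‖x.2‖) (B₃ := refConst C + 2 * ‖y.2‖)
    (by positivity) (by positivity) (by positivity) (by positivity)
    (θ₁ := pl.amp (scale C Kf) y.1) (U₁ := pl.vU (x.2 - y.2)) (D₁ := pl.vD (x.2 - y.2))
    hv.cont_u hv.cont_du aY mX aY mY (fun i s => by
      rw [← (tot_sub x.2 y.2).1, ← (tot_sub x.2 y.2).2]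
      exact forceOp_sub_mode pl.pos_start pl.pos_gap _ _ _ _ _ i s) j t
  have r1 := pl.resp_le hp.bound (by positivity) (by positivity)
    (pl.ampLe_amp hL (x.1 - y.1)) mX j t w
  have r2 := pl.resp_le hp.bound (by positivity) (by positivity) aY hv j t w
  rw [e1.1, e1.2] at r1
  rw [e2.1, e2.2] at r2
  refine le_trans ?_ ((add_le_add r1 r2).trans_eq (add_mul _ _ _).symm)
  rw [← mul_add]
  refine mul_le_mul_of_nonneg_left ?_ (by positivity)
  simp only [sub_apply]
  have := norm_sub_le_norm_sub_add_norm_sub (pl.uv (pl.amp (scale C Kf) x.1) (pl.totU x.2) (pl.totD x.2) j t w)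
    (pl.uv (pl.amp (scale C Kf) y.1) (pl.totU x.2) (pl.totD x.2) j t w)
    (pl.uv (pl.amp (scale C Kf) y.1) (pl.totU y.2) (pl.totD y.2) j t w)
  have := norm_sub_le_norm_sub_add_norm_sub (pl.dv (pl.amp (scale C Kf) x.1) (pl.totU x.2) (pl.totD x.2) j t w)
    (pl.dv (pl.amp (scale C Kf) y.1) (pl.totU x.2) (pl.totD x.2) j t w)
    (pl.dv (pl.amp (scale C Kf) y.1) (pl.totU y.2) (pl.totD y.2) j t w)
  have : (0 : ℝ) ≤ (j : ℝ) + 1 := by positivity
  nlinarith

lemma lip_bound_le {a b c e n : ℝ} (ha : a ≤ n) (hb : b ≤ 1) (hc : c ≤ 1) (he : e ≤ n)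
    (ha0 : 0 ≤ a) (hc0 : 0 ≤ c) (_hb0 : 0 ≤ b) (he0 : 0 ≤ e) :
    respConst C Kf * (a / scale C Kf) * (refConst C + 2 * c) +
        respConst C Kf * (b / scale C Kf) * (2 * e) ≤ 1 / 2 * n := by
  have hL := hp.L_pos
  have hQ := pl.respConst_nonneg hp.bound
  have hR := pl.refConst_nonneg
  have hn : 0 ≤ n := ha0.trans ha
  calc respConst C Kf * (a / scale C Kf) * (refConst C + 2 * c) +
        respConst C Kf * (b / scale C Kf) * (2 * e)
      ≤ respConst C Kf * (n / scale C Kf) * (refConst C + 2) +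
          respConst C Kf * (1 / scale C Kf) * (2 * n) := by
        gcongr; linarith
    _ = respConst C Kf * (refConst C + 4) / scale C Kf * n := by ring
    _ ≤ 1 / 2 * n := by
        refine mul_le_mul_of_nonneg_right ?_ hn
        rw [div_le_iff₀ hL, scale]
        nlinarith [mul_nonneg hQ hR]

omit hp in
lemma new_sub (x y : AmpSpace P × ModeSpace d') (j : ℕ) (t : ℝ) :
    newU (pl := pl) (Kf := Kf) x j t - newU (pl := pl) (Kf := Kf) y j t =
      (C.W ^ j * ((j : ℝ) + 1) * Real.exp (pl.κ t / 2)) •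
        (pl.uv (pl.amp (scale C Kf) x.1) (pl.totU x.2) (pl.totD x.2) j t -
          pl.uv (pl.amp (scale C Kf) y.1) (pl.totU y.2) (pl.totD y.2) j t).comp
          (leftInv (pl.N t)) ∧
    newD (pl := pl) (Kf := Kf) x j t - newD (pl := pl) (Kf := Kf) y j t =
      (C.W ^ j * Real.exp (pl.κ t / 2)) •
        (pl.dv (pl.amp (scale C Kf) x.1) (pl.totU x.2) (pl.totD x.2) j t -
          pl.dv (pl.amp (scale C Kf) y.1) (pl.totU y.2) (pl.totD y.2) j t).comp
          (leftInv (pl.N t)) := by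
  constructor <;> ext1 v <;>
    simp only [newU, newD, sub_apply, smul_apply, ContinuousLinearMap.comp_apply, smul_sub]

lemma mode_lip {x y : AmpSpace P × ModeSpace d'} (hx : ‖x‖ ≤ 2 * scale C Kf * ε)
    (hy : ‖y‖ ≤ 2 * scale C Kf * ε) (j : ℕ) (t : ℝ) :
    ‖(newU (pl := pl) (Kf := Kf) x j t, newD (pl := pl) (Kf := Kf) x j t) -
      (newU (pl := pl) (Kf := Kf) y j t, newD (pl := pl) (Kf := Kf) y j t)‖ ≤
      1 / 2 * ‖x - y‖ := by
  have hL := hp.L_pos
  have hW := pl.W_pos
  have hQ := pl.respConst_nonneg hp.bound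
  have hR := pl.refConst_nonneg
  have hB0 : 0 ≤ respConst C Kf * (‖x.1 - y.1‖ / scale C Kf) * (refConst C + 2 * ‖x.2‖) +
      respConst C Kf * (‖y.1‖ / scale C Kf) * (2 * ‖x.2 - y.2‖) := by positivity
  have hBle := hp.lip_bound_le (norm_fst_le (x - y)) ((norm_fst_le y).trans (hy.trans hp.radius))
    ((norm_snd_le x).trans (hx.trans hp.radius)) (norm_snd_le (x - y)) (norm_nonneg _)
    (norm_nonneg _) (norm_nonneg _) (norm_nonneg _)
  refine norm_prod_le_iff.2 ⟨le_trans ?_ hBle, le_trans ?_ hBle⟩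
  · rw [Prod.fst_sub, (new_sub x y j t).1]
    refine norm_scaled_le (by positivity) _ hB0 fun w => le_trans ?_ (hp.resp_sub_le x y j t w)
    rw [mul_assoc (C.W ^ j)]
    exact mul_le_mul_of_nonneg_left (le_add_of_nonneg_right (norm_nonneg _)) (by positivity)
  · rw [Prod.snd_sub, (new_sub x y j t).2]
    refine norm_scaled_le (by positivity) _ hB0 fun w => le_trans ?_ (hp.resp_sub_le x y j t w)
    exact mul_le_mul_of_nonneg_left (le_add_of_nonneg_left (by positivity)) (by positivity)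

lemma exists_fixed_state : ∃ z : AmpSpace P × ModeSpace d', ‖z‖ ≤ 2 * scale C Kf * ε ∧
    (∀ n, z.1 n = newAmp (pl := pl) (Kf := Kf) z n) ∧
    ∀ j t, z.2 j t = (newU (pl := pl) (Kf := Kf) z j t, newD (pl := pl) (Kf := Kf) z j t) := by
  obtain ⟨z, hz, hfix⟩ := exists_fixed (2 * scale C Kf * ε)
    (by have := hp.L_pos; have := hp.nonneg; positivity) hp.step (fun z hz => hp.step_le hz)
    (fun x y hx hy => norm_prod_le_iff.2
      ⟨lp.norm_le_of_forall_le (by positivity) fun n => hp.amp_lip hx hy n,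
        lp.norm_le_of_forall_le (by positivity) fun j =>
          (BoundedContinuousFunction.norm_le (by positivity)).2 fun t =>
            hp.mode_lip hx hy j t⟩)
  refine ⟨z, hz, fun n => ?_, fun j t => ?_⟩
  · have h := congrArg (fun w : AmpSpace P × ModeSpace d' => w.1 n) hfix
    exact h.symm
  · have h := congrArg (fun w : AmpSpace P × ModeSpace d' => w.2 j t) hfix
    exact h.symm

end Small

end

end Vale.Agent.P225.FP
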