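import Vale.Agent.P225.FP.Bounds
import Mathlib.Analysis.Normed.Lp.lpSpace
import Mathlib.Topology.ContinuousMap.Bounded.Normed

/-!
P225, fixed point: the contraction.

The unknown is a pair: the amplitudes (scaled by `e^{κ(a c)}` and a constant `L`) and the response
relative to the norming path (scaled by `W^j e^{κ/2}`).
-/

namespace Vale.Agent.P225.FP

open MeasureTheory
open scoped RealInnerProductSpace ContDiff ENNReal BoundedContinuousFunction

noncomputable section

/-- A bound for the reference modes. -/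
def refConst (C : Consts) : ℝ := C.W ^ C.J * ((C.J : ℝ) * (1 + C.K)) * (C.K + 1)

/-- The scale of the amplitudes. -/
def scale (C : Consts) (Kf : ℝ) : ℝ := 8 * respConst C Kf * (refConst C + 2) + 1

/-- A bound for the jump map. -/
def jumpConst (C : Consts) (Kf : ℝ) : ℝ := (C.J : ℝ) * (C.K * C.K * C.K * Kf * (C.J : ℝ))

variable {H : Harm} {sh : Shape} {C : Consts} {F : Flow H sh C} {P : Pulses} {d d' : ℕ} {ε : ℝ}
  (pl : Plan F P d d' ε) {Kf : ℝ}

/-- Scaled amplitudes. -/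
abbrev AmpSpace (P : Pulses) := lp (fun _ : ℕ => Fin P.n → ℝ) ∞

/-- Scaled responses. -/
abbrev ModeSpace (d' : ℕ) :=
  lp (fun j : ℕ => ℝ →ᵇ ((EE d' →L[ℝ] V j) × (EE d' →L[ℝ] V j))) ∞

/-- The space of the unknown. -/
abbrev State (P : Pulses) (d' : ℕ) := AmpSpace P × ModeSpace d'

namespace Plan

lemma κ_half_window {c : ℕ} {r : ℝ} (hr : r ∈ Set.Icc (pl.a c) (pl.b c)) :
    Real.exp (-(pl.κ r / 2)) ≤
      Real.exp ((pl.b c - pl.a c) / 8) * Real.exp (-(pl.κ (pl.a c) / 2)) := by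
  rw [← Real.exp_add, Real.exp_le_exp]
  linarith [(abs_le.1 (pl.κ_window hr)).1]

lemma respConst_nonneg (_pl : Plan F P d d' ε) (hKf : ForceBound H P C Kf) :
    0 ≤ respConst C Kf := by
  have := _pl.K_nonneg; have := hKf.1; have := C.μ_pos; have := _pl.yConst_nonneg hKf
  have := _pl.W_pos
  unfold respConst uConst
  positivity

lemma refConst_nonneg (_pl : Plan F P d d' ε) : 0 ≤ refConst C := by
  have := _pl.K_nonneg; have := _pl.W_pos
  unfold refConst; positivity

lemma scale_pos (_pl : Plan F P d d' ε) (hKf : ForceBound H P C Kf) : 0 < scale C Kf := by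
  have := _pl.respConst_nonneg hKf; have := _pl.refConst_nonneg
  unfold scale; positivity

/-- The amplitudes of a state. -/
def amp (L : ℝ) (z : AmpSpace P) (n : ℕ) (l : Fin P.n) : ℝ :=
  Real.exp (-pl.κ (pl.a (pl.idx n))) * L⁻¹ * z n l

/-- The response of a state. -/
def vU (v : ModeSpace d') (j : ℕ) (t : ℝ) : EE d →L[ℝ] V j :=
  ((C.W ^ j)⁻¹ * ((j : ℝ) + 1)⁻¹ * Real.exp (-(pl.κ t / 2))) • ((v j t).1).comp (pl.N t)

/-- The response of the derivatives of a state. -/
def vD (v : ModeSpace d') (j : ℕ) (t : ℝ) : EE d →L[ℝ] V j :=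
  ((C.W ^ j)⁻¹ * Real.exp (-(pl.κ t / 2))) • ((v j t).2).comp (pl.N t)

/-- The modes of a state. -/
def totU (v : ModeSpace d') (j : ℕ) (t : ℝ) : EE d →L[ℝ] V j := pl.refU j t + pl.vU v j t

/-- The derivatives of the modes of a state. -/
def totD (v : ModeSpace d') (j : ℕ) (t : ℝ) : EE d →L[ℝ] V j := pl.refD j t + pl.vD v j t

lemma ampLe_amp {L : ℝ} (hL : 0 < L) (z : AmpSpace P) : pl.AmpLe (‖z‖ / L) (pl.amp L z) := by
  intro n l
  have h1 : |z n l| ≤ ‖z‖ :=
    (((Real.norm_eq_abs _).symm.le).trans (norm_le_pi_norm (z n) l)).trans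
      (lp.norm_apply_le_norm ENNReal.top_ne_zero z n)
  simp only [amp, abs_mul, abs_of_pos (Real.exp_pos _), abs_of_pos (inv_pos.2 hL)]
  calc Real.exp (-pl.κ (pl.a (pl.idx n))) * L⁻¹ * |z n l|
      ≤ Real.exp (-pl.κ (pl.a (pl.idx n))) * L⁻¹ * ‖z‖ :=
        mul_le_mul_of_nonneg_left h1 (by positivity)
    _ = _ := by ring

lemma v_le (v : ModeSpace d') (j : ℕ) (t : ℝ) (x : EE d) :
    C.W ^ j * (((j : ℝ) + 1) * ‖pl.vU v j t x‖ + ‖pl.vD v j t x‖) ≤
      2 * ‖v‖ * Real.exp (-(pl.κ t / 2)) * ‖pl.N t x‖ := by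
  have hW := pl.W_pos
  have h : ‖v j t‖ ≤ ‖v‖ :=
    ((v j).norm_coe_le_norm t).trans (lp.norm_apply_le_norm ENNReal.top_ne_zero v j)
  have h1 := ((v j t).1.le_opNorm (pl.N t x)).trans
    (mul_le_mul_of_nonneg_right ((norm_fst_le (v j t)).trans h) (norm_nonneg _))
  have h2 := ((v j t).2.le_opNorm (pl.N t x)).trans
    (mul_le_mul_of_nonneg_right ((norm_snd_le (v j t)).trans h) (norm_nonneg _))
  simp only [vU, vD, smul_apply, ContinuousLinearMap.comp_apply, norm_smul,
    Real.norm_eq_abs, abs_mul, abs_inv, abs_of_pos (Real.exp_pos _),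
    abs_of_pos (pow_pos hW j), abs_of_pos (by positivity : (0 : ℝ) < (j : ℝ) + 1)]
  field_simp
  have := Real.exp_pos (-(pl.κ t / 2))
  nlinarith

lemma continuous_vU (v : ModeSpace d') (j : ℕ) : Continuous (pl.vU v j) := by
  have := pl.κ_cont; have := pl.N_cont; have := (v j).continuous
  unfold vU
  fun_prop

lemma continuous_vD (v : ModeSpace d') (j : ℕ) : Continuous (pl.vD v j) := by
  have := pl.κ_cont; have := pl.N_cont; have := (v j).continuous
  unfold vD
  fun_prop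

lemma modeLe_v (v : ModeSpace d') : pl.ModeLe (2 * ‖v‖) (pl.vU v) (pl.vD v) := by
  refine ⟨pl.continuous_vU v, pl.continuous_vD v, fun j t x => (pl.v_le v j t x).trans ?_⟩
  refine mul_le_mul_of_nonneg_right (mul_le_of_le_one_right (by positivity) ?_) (norm_nonneg _)
  exact Real.exp_le_one_iff.2 (by linarith [pl.κ_nonneg t])

lemma refU_le (j : ℕ) (t : ℝ) (x : EE d) :
    ‖pl.refU j t x‖ ≤ (C.K + max ε 0) * ‖pl.N t x‖ := by
  have hK := pl.K_nonneg
  by_cases hj : j < C.J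
  swap
  · simp only [refU, pl.xdes_off (Or.inr (not_lt.1 hj)) t, ContinuousLinearMap.comp_apply,
      zero_apply, map_zero, norm_zero]
    positivity
  simp only [refU, ContinuousLinearMap.comp_apply, pl.xdes_eq, add_apply, smul_apply, map_add,
    map_smul]
  set c := pl.win t
  have h1 := pl.X_le c j hj t (pl.le_b_win t) (fun c' hc' =>
    (pl.b_lt_of_lt_win (c := c') (by omega)).le) x
  refine (norm_add_le _ _).trans ((add_le_add h1 ?_).trans_eq (add_mul _ _ _).symm)
  rw [norm_smul, Real.norm_eq_abs, abs_of_nonneg (pl.ramp_mem c t).1]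
  rcases le_or_gt t (pl.a c) with h | h
  · rw [pl.ramp_of_le h, zero_mul]; positivity
  refine (mul_le_of_le_one_left (norm_nonneg _) (pl.ramp_mem c t).2).trans
    ((pl.dX_le c j hj t ⟨h.le, pl.le_b_win t⟩ x).trans ?_)
  refine mul_le_mul_of_nonneg_right ?_ (norm_nonneg _)
  rcases le_total 0 ε with hε | hε
  · exact (mul_le_of_le_one_right hε
      (Real.exp_le_one_iff.2 (by linarith [pl.κ_nonneg t]))).trans (le_max_left _ _)
  · exact (mul_nonpos_of_nonpos_of_nonneg hε (Real.exp_pos _).le).trans (le_max_right _ _)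

lemma modeLe_ref (hε : ε ≤ 1) : pl.ModeLe (refConst C) pl.refU pl.refD := by
  have hK := pl.K_nonneg
  have hW := pl.W_pos
  refine ⟨fun j => (continuous_Φ j).clm_comp (pl.continuous_xdes j), fun j =>
    (continuous_P j).clm_comp ((continuous_Φ j).clm_comp (pl.continuous_xdes j)), fun j t x => ?_⟩
  by_cases hj : j < C.J
  swap
  · simp only [refD, refU, pl.xdes_off (Or.inr (not_lt.1 hj)) t, ContinuousLinearMap.comp_apply,
      zero_apply, map_zero, norm_zero, mul_zero, add_zero]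
    exact mul_nonneg pl.refConst_nonneg (norm_nonneg _)
  have hu : ‖pl.refU j t x‖ ≤ (C.K + 1) * ‖pl.N t x‖ := (pl.refU_le j t x).trans
    (mul_le_mul_of_nonneg_right (by linarith [max_le hε zero_le_one]) (norm_nonneg _))
  have hd : ‖pl.refD j t x‖ ≤ C.K * ((j : ℝ) + 1) * ‖pl.refU j t x‖ :=
    (F.Pj j t).le_of_opNorm_le (F.P_le j t) _
  have hjJ : (j : ℝ) + 1 ≤ C.J := by exact_mod_cast hj
  calc C.W ^ j * (((j : ℝ) + 1) * ‖pl.refU j t x‖ + ‖pl.refD j t x‖)
      ≤ C.W ^ j * (((j : ℝ) + 1) * (1 + C.K) * ‖pl.refU j t x‖) :=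
        mul_le_mul_of_nonneg_left (by linarith) (by positivity)
    _ ≤ C.W ^ C.J * ((C.J : ℝ) * (1 + C.K) * ((C.K + 1) * ‖pl.N t x‖)) := by
        refine mul_le_mul (pow_le_pow_right₀ C.one_le_W hj.le) ?_ (by positivity) (by positivity)
        exact mul_le_mul (mul_le_mul_of_nonneg_right hjJ (by positivity)) hu (norm_nonneg _)
          (by positivity)
    _ = _ := by rw [refConst]; ring

lemma modeLe_tot (hε : ε ≤ 1) (v : ModeSpace d') :
    pl.ModeLe (refConst C + 2 * ‖v‖) (pl.totU v) (pl.totD v) := by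
  have h1 := pl.modeLe_ref hε
  have h2 := pl.modeLe_v v
  refine ⟨fun j => (h1.cont_u j).add (h2.cont_u j), fun j => (h1.cont_du j).add (h2.cont_du j),
    fun j t x => ?_⟩
  have hW := pl.W_pos
  refine le_trans ?_ ((add_le_add (h1.le j t x) (h2.le j t x)).trans_eq (add_mul _ _ _).symm)
  rw [← mul_add]
  refine mul_le_mul_of_nonneg_left ?_ (by positivity)
  simp only [totU, totD, add_apply]
  have := norm_add_le (pl.refU j t x) (pl.vU v j t x)
  have := norm_add_le (pl.refD j t x) (pl.vD v j t x)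
  have : (0 : ℝ) ≤ (j : ℝ) + 1 := by positivity
  nlinarith

/-- The jump produced by the deviation of the modes from the frozen ones. -/
def devJump (L : ℝ) (z : AmpSpace P) (v : ModeSpace d') (c j : ℕ) : EE d →L[ℝ] V j :=
  if 1 ≤ j ∧ j < C.J then jump F pl.pos (pl.amp L z) (pl.a c) (pl.b c)
    (pl.totU v - frozen F (pl.X c)) (pl.totD v - frozenD F (pl.X c)) j
  else 0

lemma continuous_frozen (c j : ℕ) : Continuous (frozen F (pl.X c) j) :=
  (continuous_Φ j).clm_comp continuous_const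

lemma continuous_frozenD (c j : ℕ) : Continuous (frozenD F (pl.X c) j) :=
  (continuous_P j).clm_comp ((continuous_Φ j).clm_comp continuous_const)

lemma dev_mode_le (hε0 : 0 ≤ ε) (v : ModeSpace d') {c : ℕ} {r : ℝ}
    (hr : r ∈ Set.Icc (pl.a c) (pl.b c)) (i : ℕ) (x : EE d) :
    C.W ^ i * (((i : ℝ) + 1) * ‖(pl.totU v - frozen F (pl.X c)) i r x‖ +
        ‖(pl.totD v - frozenD F (pl.X c)) i r x‖) ≤
      (refConst C * ε + 2 * ‖v‖) * Real.exp ((pl.b c - pl.a c) / 8) *
        Real.exp (-(pl.κ (pl.a c) / 2)) * ‖pl.N r x‖ := by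
  have hK := pl.K_nonneg
  have hW := pl.W_pos
  have hR := pl.refConst_nonneg
  set w : EE d →L[ℝ] V i := (F.Φ i r).comp (pl.ramp c r • pl.dX c i)
  have he1 : (pl.totU v - frozen F (pl.X c)) i r = w + pl.vU v i r := by
    simp only [Pi.sub_apply, totU, refU, frozen, pl.xdes_window i hr,
      ContinuousLinearMap.comp_add, w]
    abel
  have he2 : (pl.totD v - frozenD F (pl.X c)) i r = (F.Pj i r).comp w + pl.vD v i r := by
    simp only [Pi.sub_apply, totD, refD, refU, frozenD, pl.xdes_window i hr,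
      ContinuousLinearMap.comp_add, w]
    abel
  set e := Real.exp (-(pl.κ r / 2)) * ‖pl.N r x‖ with he
  have hw : C.W ^ i * (((i : ℝ) + 1) * ‖w x‖ + ‖F.Pj i r (w x)‖) ≤ refConst C * ε * e := by
    by_cases hi : i < C.J
    swap
    · have : w x = 0 := by
        simp [w, dX, pl.X_off _ i (Or.inr (not_lt.1 hi))]
      simp only [this, map_zero, norm_zero, mul_zero, add_zero]
      positivity
    have h1 : ‖w x‖ ≤ ε * e := by
      simp only [w, ContinuousLinearMap.comp_apply, smul_apply, map_smul, norm_smul,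
        Real.norm_eq_abs, abs_of_nonneg (pl.ramp_mem c r).1]
      refine (mul_le_of_le_one_left (norm_nonneg _) (pl.ramp_mem c r).2).trans
        ((pl.dX_le c i hi r hr x).trans_eq ?_)
      rw [he]; ring
    have h2 := (F.Pj i r).le_of_opNorm_le (F.P_le i r) (w x)
    have hiJ : (i : ℝ) + 1 ≤ C.J := by exact_mod_cast hi
    calc C.W ^ i * (((i : ℝ) + 1) * ‖w x‖ + ‖F.Pj i r (w x)‖)
        ≤ C.W ^ i * (((i : ℝ) + 1) * (1 + C.K) * ‖w x‖) :=
          mul_le_mul_of_nonneg_left (by linarith) (by positivity)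
      _ ≤ C.W ^ C.J * ((C.J : ℝ) * (1 + C.K) * (ε * e)) :=
          mul_le_mul (pow_le_pow_right₀ C.one_le_W hi.le)
            (mul_le_mul (mul_le_mul_of_nonneg_right hiJ (by positivity)) h1 (norm_nonneg _)
              (by positivity)) (by positivity) (by positivity)
      _ ≤ refConst C * ε * e := by
          rw [refConst]
          have : 0 ≤ C.W ^ C.J * ((C.J : ℝ) * (1 + C.K)) * (ε * e) := by positivity
          nlinarith [mul_nonneg hK this]
  have hv := pl.v_le v i r x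
  have hsum : C.W ^ i * (((i : ℝ) + 1) * ‖(w + pl.vU v i r) x‖ +
      ‖((F.Pj i r).comp w + pl.vD v i r) x‖) ≤ (refConst C * ε + 2 * ‖v‖) * e := by
    refine le_trans ?_ ((add_le_add hw (hv.trans_eq (by rw [he]; ring :
      2 * ‖v‖ * Real.exp (-(pl.κ r / 2)) * ‖pl.N r x‖ = 2 * ‖v‖ * e))).trans_eq
      (add_mul _ _ _).symm)
    rw [← mul_add]
    refine mul_le_mul_of_nonneg_left ?_ (by positivity)
    simp only [add_apply, ContinuousLinearMap.comp_apply]
    have := norm_add_le (w x) (pl.vU v i r x)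
    have := norm_add_le (F.Pj i r (w x)) (pl.vD v i r x)
    have : (0 : ℝ) ≤ (i : ℝ) + 1 := by positivity
    nlinarith
  rw [he1, he2]
  refine hsum.trans ?_
  rw [he, mul_assoc (refConst C * ε + 2 * ‖v‖) (Real.exp _) (Real.exp _),
    mul_assoc (refConst C * ε + 2 * ‖v‖) (_ * _)]
  exact mul_le_mul_of_nonneg_left
    (mul_le_mul_of_nonneg_right (pl.κ_half_window hr) (norm_nonneg _)) (by positivity)

/-- The right inverse applied to a small jump. -/
lemma R_jump_le (hKf : ForceBound H P C Kf) {θ : ℕ → Fin P.n → ℝ} {s B : ℝ} (hs : 0 ≤ s)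
    (hB : 0 ≤ B) (hθ : pl.AmpLe s θ) {U D : (j : ℕ) → ℝ → EE d →L[ℝ] V j}
    (hUc : ∀ i, Continuous (U i)) (hDc : ∀ i, Continuous (D i)) (c : ℕ)
    (hU : ∀ r ∈ Set.Icc (pl.a c) (pl.b c), ∀ (i : ℕ) x,
      C.W ^ i * (((i : ℝ) + 1) * ‖U i r x‖ + ‖D i r x‖) ≤
        B * Real.exp ((pl.b c - pl.a c) / 8) * Real.exp (-(pl.κ (pl.a c) / 2)) * ‖pl.N r x‖)
    (n : ℕ) (l : Fin P.n) :
    |pl.R c (fun j => if 1 ≤ j ∧ j < C.J then
        jump F pl.pos θ (pl.a c) (pl.b c) U D j else 0) n l| ≤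
      ε * jumpConst C Kf * s * B * Real.exp (-pl.κ (pl.a c)) := by
  have hK := pl.K_nonneg
  have hKf0 := hKf.1
  set len := pl.b c - pl.a c with hlen
  have hl := pl.len_one c
  set Z := C.K * C.K * C.K * Kf * (C.J : ℝ) with hZ
  set r0 : ℝ := Z * s * (B * Real.exp (len / 8) * Real.exp (-(pl.κ (pl.a c) / 2))) *
    Real.exp (-pl.κ (pl.a c)) * Real.exp ((C.Γ + C.Λ + 1) * len) with hr0
  have h0 : 0 ≤ r0 := by positivity
  refine (pl.R_le c _ (fun _ => r0) (fun _ _ => h0) (fun j hj x => ?_) n l).trans ?_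
  · split
    · rename_i h
      exact pl.window_le hKf hs (by positivity) hθ hUc hDc hU h.1 h.2
        ⟨(pl.a_lt_b c).le, le_rfl⟩ ⟨le_rfl, (pl.a_lt_b c).le⟩ x
    · simp only [zero_apply, map_zero, norm_zero]
      positivity
  rw [Finset.sum_const, Finset.card_range, nsmul_eq_mul]
  have hexp : pl.ρ c * (Real.exp (len / 8) * Real.exp ((C.Γ + C.Λ + 1) * len) *
      Real.exp (-(pl.κ (pl.a c) / 2))) ≤ ε := by
    refine le_trans ?_ (pl.ρ_small c)
    rw [mul_assoc (pl.ρ c) (Real.exp _) (Real.exp _), ← Real.exp_add]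
    refine mul_le_mul_of_nonneg_left (mul_le_mul_of_nonneg_right (Real.exp_le_exp.2 ?_)
      (Real.exp_pos _).le) (pl.ρ_nonneg c)
    nlinarith [C.Γ_nonneg, C.Λ_nonneg]
  calc pl.ρ c * ((C.J : ℝ) * r0)
      = (C.J : ℝ) * Z * s * B * Real.exp (-pl.κ (pl.a c)) * (pl.ρ c * (Real.exp (len / 8) *
          Real.exp ((C.Γ + C.Λ + 1) * len) * Real.exp (-(pl.κ (pl.a c) / 2)))) := by
        rw [hr0]; ring
    _ ≤ (C.J : ℝ) * Z * s * B * Real.exp (-pl.κ (pl.a c)) * ε :=
        mul_le_mul_of_nonneg_left hexp (by positivity)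
    _ = _ := by rw [jumpConst, hZ]; ring

end Plan

end

end Vale.Agent.P225.FP
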