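import Vale.Agent.P225.FP.Defs

/-!
P225, fixed point: the forcing of the pulses on operator valued modes.

At each time finitely many (in fact one) slots act, the forcing is linear in the amplitudes and in
the modes, and in the norm `(j+1) ‖u‖ + ‖du‖` it loses one degree and a constant.
-/

namespace Vale.Agent.P225.FP

open scoped RealInnerProductSpace ContDiff
open Filter Topology

noncomputable section

variable (H : Harm) (sh : Shape)

lemma norm_EL_le (j : ℕ) (k : Fin 3) (v : V j) : ‖H.EL j k v‖ ≤ ((j : ℝ) + 1) * ‖v‖ := by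
  have h1 : ∀ l : Fin 3, ⟪H.EL j l (H.EL j l v), v⟫ = -‖H.EL j l v‖ ^ 2 := fun l => by
    rw [H.skew_left, real_inner_self_eq_norm_sq]
  have h2 : (∑ l, ‖H.EL j l v‖ ^ 2) = ((j : ℝ) * (j + 2)) * ‖v‖ ^ 2 := by
    have h := congrArg (fun w => ⟪w, v⟫) (H.casimir_left j v)
    simp only [sum_inner, h1, real_inner_smul_left, real_inner_self_eq_norm_sq,
      Finset.sum_neg_distrib] at h
    linarith
  have h3 : ‖H.EL j k v‖ ^ 2 ≤ ((j : ℝ) * (j + 2)) * ‖v‖ ^ 2 :=
    h2 ▸ Finset.single_le_sum (f := fun l => ‖H.EL j l v‖ ^ 2) (fun l _ => sq_nonneg _)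
      (Finset.mem_univ k)
  refine (pow_le_pow_iff_left₀ (norm_nonneg _) (by positivity) two_ne_zero).1 (h3.trans ?_)
  rw [mul_pow]
  exact mul_le_mul_of_nonneg_right (by nlinarith) (sq_nonneg _)

lemma deriv_prof_zero (p : Pulse) {t : ℝ} (ht : t ∉ Set.Ioo (0 : ℝ) 1) :
    deriv p.prof t = 0 := by
  have hc : Continuous (deriv p.prof) := p.smooth.continuous_deriv (by simp)
  have hlt : ∀ s < (0 : ℝ), deriv p.prof s = 0 := fun s hs => by
    have he : p.prof =ᶠ[𝓝 s] fun _ => (0 : ℝ) :=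
      (eventually_lt_nhds hs).mono fun r hr => p.supp r fun h => (not_lt.2 hr.le) h.1
    rw [he.deriv_eq, deriv_const]
  have hgt : ∀ s > (1 : ℝ), deriv p.prof s = 0 := fun s hs => by
    have he : p.prof =ᶠ[𝓝 s] fun _ => (0 : ℝ) :=
      (eventually_gt_nhds hs).mono fun r hr => p.supp r fun h => (not_lt.2 hr.le) h.2
    rw [he.deriv_eq, deriv_const]
  have hcl : IsClosed {s : ℝ | deriv p.prof s = 0} := isClosed_eq hc continuous_const
  rcases lt_or_ge (0 : ℝ) t with h | h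
  · have h1 : 1 ≤ t := le_of_not_gt fun h' => ht ⟨h, h'⟩
    have : t ∈ closure (Set.Ioi (1 : ℝ)) := by rw [closure_Ioi]; exact h1
    exact hcl.closure_subset_iff.2 hgt this
  · have : t ∈ closure (Set.Iio (0 : ℝ)) := by rw [closure_Iio]; exact h
    exact hcl.closure_subset_iff.2 hlt this

lemma exists_prof_bound (p : Pulse) :
    ∃ B : ℝ, 0 ≤ B ∧ ∀ t, |p.prof t| ≤ B ∧ |deriv p.prof t| ≤ B := by
  have hd : Continuous (deriv p.prof) := p.smooth.continuous_deriv (by simp)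
  obtain ⟨B₁, hB₁⟩ := (isCompact_Icc (a := (0 : ℝ)) (b := 1)).exists_bound_of_continuousOn
    p.smooth.continuous.continuousOn
  obtain ⟨B₂, hB₂⟩ := (isCompact_Icc (a := (0 : ℝ)) (b := 1)).exists_bound_of_continuousOn
    hd.continuousOn
  refine ⟨max 0 (max B₁ B₂), le_max_left _ _, fun t => ?_⟩
  by_cases ht : t ∈ Set.Ioo (0 : ℝ) 1
  · have ht' := Set.Ioo_subset_Icc_self ht
    exact ⟨((Real.norm_eq_abs _).symm.le.trans (hB₁ t ht')).trans
      ((le_max_left _ _).trans (le_max_right _ _)),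
      ((Real.norm_eq_abs _).symm.le.trans (hB₂ t ht')).trans
      ((le_max_right _ _).trans (le_max_right _ _))⟩
  · simp [p.supp t ht, deriv_prof_zero p ht]

variable {E : Type} [NormedAddCommGroup E] [NormedSpace ℝ E]

lemma pulseOp_eq_zero (p : Pulse) (s : ℝ) {τ : ℝ} (hτ : τ ∉ Set.Ioo (0 : ℝ) 1) (j j' : ℕ)
    (u du : E →L[ℝ] V j) : pulseOp H p s τ j j' u du = 0 := by
  ext x
  simp only [pulseOp]
  split <;> simp [p.supp τ hτ, deriv_prof_zero p hτ]

lemma pulseOp_band (p : Pulse) (s τ : ℝ) (j j' : ℕ) (h : j' + p.deg < j ∨ j + p.deg < j')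
    (u du : E →L[ℝ] V j) : pulseOp H p s τ j j' u du = 0 := by
  ext x
  simp only [pulseOp]
  split <;> simp [H.mul_band p.deg p.vec j j' h]

lemma pulseOp_sub (p : Pulse) (s τ : ℝ) (j j' : ℕ) (u u' du du' : E →L[ℝ] V j) :
    pulseOp H p s τ j j' (u - u') (du - du') =
      pulseOp H p s τ j j' u du - pulseOp H p s τ j j' u' du' := by
  ext1 x
  simp only [pulseOp]
  split <;> simp [Finset.sum_sub_distrib, smul_sub]
  abel

lemma pulseOp_apply (p : Pulse) (s τ : ℝ) (j j' : ℕ) (u du : E →L[ℝ] V j) (x : E) :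
    pulseOp H p s τ j j' u du x = p.force H s τ j j' (u x) (du x) := by
  rcases hk : p.kind with _ | k <;> simp [pulseOp, Pulse.force, hk]

lemma exists_pulse_bound (p : Pulse) (K : ℝ) : ∃ B : ℝ, 0 ≤ B ∧
    ∀ {E : Type} [NormedAddCommGroup E] [NormedSpace ℝ E] (s τ : ℝ) (j j' : ℕ)
      (u du : E →L[ℝ] V j) (x : E), |s| ≤ K →
      ‖pulseOp H p s τ j j' u du x‖ ≤
        B * ((j' : ℝ) + 1) * (((j : ℝ) + 1) * ‖u x‖ + ‖du x‖) := by
  obtain ⟨B, hB, hb⟩ := exists_prof_bound p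
  set M : ℝ := H.C ^ p.deg * ‖p.vec‖ with hM
  have hM0 : 0 ≤ M := mul_nonneg (pow_nonneg (zero_le_one.trans H.one_le_C) _) (norm_nonneg _)
  set L : ℝ := (p.deg : ℝ) + 1 with hL
  have hL1 : 1 ≤ L := by simp [hL]
  have hL0 : 0 ≤ L := zero_le_one.trans hL1
  refine ⟨M * B * L * (|K| + 3 + 3), by positivity, fun {E} _ _ s τ j j' u du x hs => ?_⟩
  obtain ⟨hb₁, hb₂⟩ := hb τ
  rcases (Nat.lt_or_ge (j' + p.deg) j) with h | h
  · rw [pulseOp_band H p s τ j j' (Or.inl h), zero_apply, norm_zero]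
    positivity
  have hband : (j : ℝ) + 1 ≤ ((j' : ℝ) + 1) * L := by
    have : (j : ℝ) ≤ j' + p.deg := by exact_mod_cast h
    nlinarith [mul_nonneg (j'.cast_nonneg : (0 : ℝ) ≤ j') (p.deg.cast_nonneg : (0 : ℝ) ≤ p.deg)]
  have hmul : ∀ v : V j, ‖H.mul p.deg p.vec j j' v‖ ≤ M * ‖v‖ := fun v =>
    ((H.mul p.deg p.vec j j').le_opNorm v).trans
      (mul_le_mul_of_nonneg_right (H.mul_norm _ _ _ _) (norm_nonneg _))
  have hKK : |s| ≤ |K| := hs.trans (le_abs_self K)
  have hj' : (1 : ℝ) ≤ (j' : ℝ) + 1 := by simp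
  have hj0 : (0 : ℝ) ≤ (j : ℝ) + 1 := by positivity
  set U : ℝ := ((j : ℝ) + 1) * ‖u x‖
  set D : ℝ := ‖du x‖
  have hU : 0 ≤ U := by positivity
  have hD : 0 ≤ D := norm_nonneg _
  set Q : ℝ := ((j' : ℝ) + 1) * L * (U + D) with hQ
  have hQ0 : 0 ≤ Q := by positivity
  have hgoal : M * B * L * (|K| + 3 + 3) * ((j' : ℝ) + 1) * (U + D) =
      B * (M * Q) * (|K| + 3 + 3) := by rw [hQ]; ring
  have hone : 1 ≤ ((j' : ℝ) + 1) * L := one_le_mul_of_one_le_of_one_le hj' hL1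
  rw [hgoal]
  simp only [pulseOp]
  split
  · rename_i k _
    have h1 : ‖H.mul p.deg p.vec j j' (H.EL j k (u x))‖ ≤ M * Q := by
      refine ((hmul _).trans (mul_le_mul_of_nonneg_left (norm_EL_le H j k _) hM0)).trans ?_
      refine mul_le_mul_of_nonneg_left ?_ hM0
      exact (le_add_of_nonneg_right hD).trans (le_mul_of_one_le_left (by positivity) hone)
    have h2 : ‖H.EL j' k (H.mul p.deg p.vec j j' (du x))‖ ≤ M * Q := by
      refine ((norm_EL_le H j' k _).trans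
        (mul_le_mul_of_nonneg_left (hmul _) (by positivity))).trans ?_
      calc ((j' : ℝ) + 1) * (M * D) = M * (((j' : ℝ) + 1) * D) := by ring
        _ ≤ M * Q := mul_le_mul_of_nonneg_left (mul_le_mul
            (le_mul_of_one_le_right (by positivity) hL1) (le_add_of_nonneg_left hU) hD
            (by positivity)) hM0
    have h4 : ‖H.mul p.deg p.vec j j' (H.EL j k (du x))‖ ≤ M * Q := by
      refine ((hmul _).trans (mul_le_mul_of_nonneg_left (norm_EL_le H j k (du x)) hM0)).trans ?_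
      exact mul_le_mul_of_nonneg_left
        (mul_le_mul hband (le_add_of_nonneg_left hU) hD (by positivity)) hM0
    have h3 : |deriv p.prof τ + (2 + s) * p.prof τ| ≤ B * (|K| + 3) := by
      refine (abs_add_le _ _).trans ?_
      rw [abs_mul]
      have : |2 + s| ≤ |K| + 2 := (abs_add_le _ _).trans (by rw [abs_two]; linarith)
      nlinarith [mul_le_mul this hb₁ (abs_nonneg _) (by positivity)]
    simp only [add_apply, smul_apply,
      ContinuousLinearMap.comp_apply]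
    refine (norm_add₃_le).trans ?_
    simp only [norm_smul, Real.norm_eq_abs]
    have e1 := mul_le_mul h3 h1 (norm_nonneg _) (by positivity)
    have e2 := mul_le_mul hb₁ h4 (norm_nonneg _) hB
    have e3 := mul_le_mul hb₁ h2 (norm_nonneg _) hB
    nlinarith [mul_nonneg hB (mul_nonneg hM0 hQ0)]
  · simp only [smul_apply, sum_apply,
      ContinuousLinearMap.comp_apply, norm_smul, Real.norm_eq_abs]
    have h1 : ∀ k, ‖H.EL j' k (H.mul p.deg p.vec j j' (H.EL j k (u x)))‖ ≤ M * Q := fun k => by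
      refine ((norm_EL_le H j' k _).trans (mul_le_mul_of_nonneg_left ((hmul _).trans
        (mul_le_mul_of_nonneg_left (norm_EL_le H j k _) hM0)) (by positivity))).trans ?_
      calc ((j' : ℝ) + 1) * (M * U) = M * (((j' : ℝ) + 1) * U) := by ring
        _ ≤ M * Q := mul_le_mul_of_nonneg_left (mul_le_mul
            (le_mul_of_one_le_right (by positivity) hL1) (le_add_of_nonneg_right hD) hU
            (by positivity)) hM0
    have hsum : ‖∑ k, H.EL j' k (H.mul p.deg p.vec j j' (H.EL j k (u x)))‖ ≤ 3 * (M * Q) :=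
      (norm_sum_le _ _).trans ((Finset.sum_le_sum fun k _ => h1 k).trans (by simp))
    refine (mul_le_mul hb₁ hsum (norm_nonneg _) hB).trans ?_
    nlinarith [mul_nonneg hB (mul_nonneg hM0 hQ0), abs_nonneg K]

/-- The contribution of slot `n`. -/
def slotOp {P : Pulses} (pos : ℕ → ℝ) (θ : ℕ → Fin P.n → ℝ)
    (u du : (j : ℕ) → ℝ → E →L[ℝ] V j) (j' : ℕ) (t : ℝ) (n : ℕ) : E →L[ℝ] V j' :=
  ∑ l, θ n l • ∑ j ∈ Finset.range (j' + (P.item l).deg + 1),
    pulseOp H (P.item l) (sh.drift t) (t - pos n) j j' (u j t) (du j t)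

lemma forceOp_eq_tsum {P : Pulses} (pos : ℕ → ℝ) (θ : ℕ → Fin P.n → ℝ)
    (u du : (j : ℕ) → ℝ → E →L[ℝ] V j) (j' : ℕ) (t : ℝ) :
    forceOp H sh pos θ u du j' t = ∑' n, slotOp H sh pos θ u du j' t n := rfl

variable {H sh} {P : Pulses} {pos : ℕ → ℝ}

lemma slotOp_eq_zero {θ : ℕ → Fin P.n → ℝ} {u du : (j : ℕ) → ℝ → E →L[ℝ] V j} {j' : ℕ}
    {t : ℝ} {n : ℕ} (h : t - pos n ∉ Set.Ioo (0 : ℝ) 1 ∨ θ n = 0) :
    slotOp H sh pos θ u du j' t n = 0 := by
  rcases h with h | h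
  · refine Finset.sum_eq_zero fun l _ => ?_
    rw [Finset.sum_eq_zero fun j _ => pulseOp_eq_zero H _ _ h _ _ _ _, smul_zero]
  · refine Finset.sum_eq_zero fun l _ => ?_
    rw [congrFun h l]
    ext1 x
    simp

lemma le_pos (h0 : 1 ≤ pos 0) (hg : ∀ n, pos n + 1 ≤ pos (n + 1)) (n : ℕ) :
    (n : ℝ) + 1 ≤ pos n := by
  induction n with
  | zero => simpa using h0
  | succ n ih => push_cast; linarith [hg n]

lemma slot_unique (hg : ∀ n, pos n + 1 ≤ pos (n + 1)) {t : ℝ} {m n : ℕ}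
    (hm : t - pos m ∈ Set.Ioo (0 : ℝ) 1) (hn : t - pos n ∈ Set.Ioo (0 : ℝ) 1) : m = n := by
  have hmono : Monotone pos := monotone_nat_of_le_succ fun k => by linarith [hg k]
  by_contra hne
  rcases lt_or_gt_of_ne hne with h | h
  · linarith [hmono (Nat.succ_le_of_lt h), hg m, hm.2, hn.1]
  · linarith [hmono (Nat.succ_le_of_lt h), hg n, hn.2, hm.1]

lemma forceOp_eq_finset (h0 : 1 ≤ pos 0) (hg : ∀ n, pos n + 1 ≤ pos (n + 1))
    (θ : ℕ → Fin P.n → ℝ) (u du : (j : ℕ) → ℝ → E →L[ℝ] V j) (j' : ℕ) {t : ℝ} {M : ℕ}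
    (ht : t ≤ M + 1) :
    forceOp H sh pos θ u du j' t = ∑ n ∈ Finset.range M, slotOp H sh pos θ u du j' t n := by
  rw [forceOp_eq_tsum]
  refine tsum_eq_sum fun n hn => slotOp_eq_zero (Or.inl fun h => ?_)
  have : (M : ℝ) ≤ n := by exact_mod_cast not_lt.1 (fun h' => hn (Finset.mem_range.2 h'))
  linarith [le_pos h0 hg n, h.1]

lemma forceOp_eq_zero {θ : ℕ → Fin P.n → ℝ} {u du : (j : ℕ) → ℝ → E →L[ℝ] V j} {j' : ℕ}
    {t : ℝ} (h : ∀ n, t - pos n ∉ Set.Ioo (0 : ℝ) 1 ∨ θ n = 0) :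
    forceOp H sh pos θ u du j' t = 0 := by
  rw [forceOp_eq_tsum, tsum_congr fun n => slotOp_eq_zero (h n), tsum_zero]

lemma forceOp_slot (hg : ∀ n, pos n + 1 ≤ pos (n + 1)) {θ : ℕ → Fin P.n → ℝ}
    {u du : (j : ℕ) → ℝ → E →L[ℝ] V j} {j' : ℕ} {t : ℝ} {n : ℕ}
    (hn : t - pos n ∈ Set.Ioo (0 : ℝ) 1) :
    forceOp H sh pos θ u du j' t = slotOp H sh pos θ u du j' t n := by
  rw [forceOp_eq_tsum]
  exact tsum_eq_single n fun m hm =>
    slotOp_eq_zero (Or.inl fun h => hm (slot_unique hg h hn))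

lemma forceOp_sub_amp (h0 : 1 ≤ pos 0) (hg : ∀ n, pos n + 1 ≤ pos (n + 1))
    (θ θ' : ℕ → Fin P.n → ℝ) (u du : (j : ℕ) → ℝ → E →L[ℝ] V j) (j' : ℕ) (t : ℝ) :
    forceOp H sh pos (θ - θ') u du j' t =
      forceOp H sh pos θ u du j' t - forceOp H sh pos θ' u du j' t := by
  have ht : t ≤ (⌈t⌉₊ : ℝ) + 1 := by linarith [Nat.le_ceil t]
  rw [forceOp_eq_finset h0 hg _ _ _ _ ht, forceOp_eq_finset h0 hg _ _ _ _ ht,
    forceOp_eq_finset h0 hg _ _ _ _ ht]
  ext1 x
  simp [slotOp, sub_smul, Finset.sum_sub_distrib]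

lemma forceOp_sub_mode (h0 : 1 ≤ pos 0) (hg : ∀ n, pos n + 1 ≤ pos (n + 1))
    (θ : ℕ → Fin P.n → ℝ) (u u' du du' : (j : ℕ) → ℝ → E →L[ℝ] V j) (j' : ℕ) (t : ℝ) :
    forceOp H sh pos θ (u - u') (du - du') j' t =
      forceOp H sh pos θ u du j' t - forceOp H sh pos θ u' du' j' t := by
  have ht : t ≤ (⌈t⌉₊ : ℝ) + 1 := by linarith [Nat.le_ceil t]
  simp only [forceOp_eq_finset h0 hg _ _ _ _ ht, slotOp, Pi.sub_apply, pulseOp_sub,
    Finset.sum_sub_distrib, smul_sub]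

lemma forceOp_apply (h0 : 1 ≤ pos 0) (hg : ∀ n, pos n + 1 ≤ pos (n + 1))
    (A : Amps P) (hA : A.pos = pos) (u du : (j : ℕ) → ℝ → E →L[ℝ] V j) (j' : ℕ) (t : ℝ)
    (x : E) : forceOp H sh pos A.θ u du j' t x =
      A.force H sh (fun j s => u j s x) (fun j s => du j s x) j' t := by
  subst hA
  have ht : t ≤ (⌈t⌉₊ : ℝ) + 1 := by linarith [Nat.le_ceil t]
  rw [forceOp_eq_finset h0 hg _ _ _ _ ht, Amps.force, sum_apply]
  symm
  rw [tsum_eq_sum (s := Finset.range ⌈t⌉₊) fun n hn => ?_]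
  · refine Finset.sum_congr rfl fun n _ => ?_
    simp [slotOp, pulseOp_apply]
  · have h := congrArg (fun T : E →L[ℝ] V j' => T x) (slotOp_eq_zero (H := H) (sh := sh) (pos := A.pos)
      (θ := A.θ) (u := u) (du := du) (j' := j') (t := t) (n := n) (Or.inl fun h => ?_))
    · simpa [slotOp, pulseOp_apply] using h
    · have : (⌈t⌉₊ : ℝ) ≤ n := by exact_mod_cast not_lt.1 (fun h' => hn (Finset.mem_range.2 h'))
      linarith [le_pos h0 hg n, h.1]

lemma continuous_drift : Continuous sh.drift := by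
  unfold Shape.drift
  exact continuous_const.mul (sh.smooth_χ.continuous_deriv (by simp))

lemma continuous_pulseOp (p : Pulse) (j j' : ℕ) (c : ℝ) {u du : ℝ → E →L[ℝ] V j}
    (hu : Continuous u) (hdu : Continuous du) :
    Continuous fun t => pulseOp H p (sh.drift t) (t - c) j j' (u t) (du t) := by
  have hs : Continuous sh.drift := continuous_drift
  have hp : Continuous p.prof := p.smooth.continuous
  have hd : Continuous (deriv p.prof) := p.smooth.continuous_deriv (by simp)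
  simp only [pulseOp]
  split <;> fun_prop

lemma continuous_slotOp (θ : ℕ → Fin P.n → ℝ) {u du : (j : ℕ) → ℝ → E →L[ℝ] V j}
    (hu : ∀ j, Continuous (u j)) (hdu : ∀ j, Continuous (du j)) (j' n : ℕ) :
    Continuous fun t => slotOp H sh pos θ u du j' t n := by
  unfold slotOp
  exact continuous_finsetSum _ fun l _ => Continuous.fun_const_smul (continuous_finsetSum _
    fun j _ => continuous_pulseOp (P.item l) j j' (pos n) (hu j) (hdu j)) (θ n l)

lemma continuous_forceOp (h0 : 1 ≤ pos 0) (hg : ∀ n, pos n + 1 ≤ pos (n + 1))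
    (θ : ℕ → Fin P.n → ℝ) {u du : (j : ℕ) → ℝ → E →L[ℝ] V j}
    (hu : ∀ j, Continuous (u j)) (hdu : ∀ j, Continuous (du j)) (j' : ℕ) :
    Continuous fun t => forceOp H sh pos θ u du j' t := by
  refine continuous_iff_continuousAt.2 fun t => ?_
  have he : (fun r => forceOp H sh pos θ u du j' r) =ᶠ[𝓝 t]
      fun r => ∑ n ∈ Finset.range ⌈t⌉₊, slotOp H sh pos θ u du j' r n :=
    (eventually_lt_nhds (lt_add_one t)).mono fun r hr =>
      forceOp_eq_finset h0 hg θ u du j' (by linarith [Nat.le_ceil t])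
  exact (continuous_finsetSum _ fun n _ =>
    continuous_slotOp θ hu hdu j' n).continuousAt.congr he.symm

variable (H P)

lemma exists_force_bound (K W : ℝ) (hW : 1 ≤ W) : ∃ B : ℝ, 0 ≤ B ∧
    ∀ {E : Type} [NormedAddCommGroup E] [NormedSpace ℝ E] (sh : Shape) (pos : ℕ → ℝ)
      (θ : ℕ → Fin P.n → ℝ) (u du : (j : ℕ) → ℝ → E →L[ℝ] V j) (j' : ℕ) (t : ℝ) (x : E)
      (T A : ℝ), (∀ n, pos n + 1 ≤ pos (n + 1)) → |sh.drift t| ≤ K → 0 ≤ T → 0 ≤ A →
      (∀ n l, t - pos n ∈ Set.Ioo (0 : ℝ) 1 → |θ n l| ≤ T) →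
      (∀ j : ℕ, W ^ j * (((j : ℝ) + 1) * ‖u j t x‖ + ‖du j t x‖) ≤ A) →
      W ^ j' * ‖forceOp H sh pos θ u du j' t x‖ ≤ B * ((j' : ℝ) + 1) * T * A := by
  choose B hB0 hB using fun l : Fin P.n => exists_pulse_bound H (P.item l) K
  refine ⟨∑ l, (2 * ((P.item l).deg : ℝ) + 1) * B l * W ^ (P.item l).deg,
    Finset.sum_nonneg fun l _ => by have := hB0 l; positivity,
    fun {E} _ _ sh pos θ u du j' t x T A hg hs hT hA hθ hu => ?_⟩
  have hW0 : 0 < W := zero_lt_one.trans_le hW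
  by_cases hn : ∃ n, t - pos n ∈ Set.Ioo (0 : ℝ) 1
  swap
  · push Not at hn
    rw [forceOp_eq_zero fun n => Or.inl (hn n), zero_apply, norm_zero, mul_zero]
    have : 0 ≤ ∑ l, (2 * ((P.item l).deg : ℝ) + 1) * B l * W ^ (P.item l).deg :=
      Finset.sum_nonneg fun l _ => by have := hB0 l; positivity
    positivity
  obtain ⟨n, hn⟩ := hn
  rw [forceOp_slot hg hn, slotOp, sum_apply]
  refine (mul_le_mul_of_nonneg_left (norm_sum_le _ _) (by positivity)).trans ?_
  rw [Finset.mul_sum, Finset.sum_mul, Finset.sum_mul, Finset.sum_mul]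
  refine Finset.sum_le_sum fun l _ => ?_
  rw [smul_apply, norm_smul, Real.norm_eq_abs, sum_apply]
  set d := (P.item l).deg with hd
  have hterm : ∀ j ∈ Finset.range (j' + d + 1),
      W ^ j' * ‖pulseOp H (P.item l) (sh.drift t) (t - pos n) j j' (u j t) (du j t) x‖ ≤
        if j' ≤ j + d then B l * ((j' : ℝ) + 1) * (W ^ d * A) else 0 := fun j _ => by
    split
    · rename_i hj
      have h1 : W ^ j' ≤ W ^ d * W ^ j := by rw [← pow_add]; exact pow_le_pow_right₀ hW (by omega)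
      have h2 := hB l (E := E) (sh.drift t) (t - pos n) j j' (u j t) (du j t) x hs
      have h3 : W ^ j' * (((j : ℝ) + 1) * ‖u j t x‖ + ‖du j t x‖) ≤ W ^ d * A :=
        (mul_le_mul_of_nonneg_right h1 (by positivity)).trans
          (by rw [mul_assoc]; exact mul_le_mul_of_nonneg_left (hu j) (by positivity))
      refine (mul_le_mul_of_nonneg_left h2 (by positivity)).trans ?_
      refine le_of_eq_of_le (by ring) (mul_le_mul_of_nonneg_left h3 (by have := hB0 l; positivity))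
    · rename_i hj
      rw [pulseOp_band H _ _ _ _ _ (Or.inr (by omega)), zero_apply, norm_zero, mul_zero]
  calc W ^ j' * (|θ n l| * ‖∑ j ∈ Finset.range (j' + d + 1),
        pulseOp H (P.item l) (sh.drift t) (t - pos n) j j' (u j t) (du j t) x‖)
      ≤ T * ∑ j ∈ Finset.range (j' + d + 1),
          W ^ j' * ‖pulseOp H (P.item l) (sh.drift t) (t - pos n) j j' (u j t) (du j t) x‖ := by
        rw [← mul_assoc, mul_comm _ |θ n l|, mul_assoc, ← Finset.mul_sum]
        exact mul_le_mul (hθ n l hn) (mul_le_mul_of_nonneg_left (norm_sum_le _ _) (by positivity))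
          (by positivity) hT
    _ ≤ T * ∑ j ∈ Finset.range (j' + d + 1),
          if j' ≤ j + d then B l * ((j' : ℝ) + 1) * (W ^ d * A) else 0 :=
        mul_le_mul_of_nonneg_left (Finset.sum_le_sum hterm) hT
    _ ≤ T * ((2 * (d : ℝ) + 1) * (B l * ((j' : ℝ) + 1) * (W ^ d * A))) := by
        refine mul_le_mul_of_nonneg_left ?_ hT
        rw [← Finset.sum_filter, Finset.sum_const, nsmul_eq_mul]
        refine mul_le_mul_of_nonneg_right ?_ (by have := hB0 l; positivity)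
        have : ((Finset.range (j' + d + 1)).filter fun j => j' ≤ j + d) ⊆
            Finset.Ico (j' - d) (j' + d + 1) := fun j hj => by
          simp at hj ⊢; omega
        have h := (Finset.card_le_card this).trans_eq (Nat.card_Ico _ _)
        calc ((((Finset.range (j' + d + 1)).filter fun j => j' ≤ j + d).card : ℕ) : ℝ)
            ≤ ((2 * d + 1 : ℕ) : ℝ) := by exact_mod_cast h.trans (by omega)
          _ = 2 * (d : ℝ) + 1 := by push_cast; ring
    _ = (2 * (d : ℝ) + 1) * B l * W ^ d * ((j' : ℝ) + 1) * T * A := by ring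

end

end Vale.Agent.P225.FP
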