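import Vale.Agent.P225.FP.Kernel
import Vale.Agent.P225.FP.Left

/-!
P225, fixed point: the response of all degrees to given amplitudes and modes.

With `x_des` the designed controlled variable (constant between composites, ramped inside), the
response `(uv, dv)` is chosen so that at the fixed point `(Φ x_des + uv, P Φ x_des + dv)` solves
the mode equations.
-/

namespace Vale.Agent.P225.FP

open MeasureTheory intervalIntegral Filter Topology
open scoped RealInnerProductSpace ContDiff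

noncomputable section

variable {H : Harm} {sh : Shape} {C : Consts} {F : Flow H sh C} {P : Pulses} {d d' : ℕ} {ε : ℝ}
  (pl : Plan F P d d' ε)

namespace Plan

lemma le_first (c : ℕ) : c ≤ pl.first c := pl.first_mono.id_le c

lemma first_lt (c : ℕ) : pl.first c < pl.first (c + 1) := pl.first_mono (Nat.lt_succ_self c)

lemma a_add_one_le_b (c : ℕ) : pl.a c + 1 ≤ pl.b c := by
  obtain ⟨h1, h2⟩ := pl.slot_mem c (pl.first c) le_rfl (pl.first_lt c)
  linarith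

lemma a_lt_b (c : ℕ) : pl.a c < pl.b c := by linarith [pl.a_add_one_le_b c]

lemma a_succ (c : ℕ) : pl.a c + 1 ≤ pl.a (c + 1) := (pl.a_add_one_le_b c).trans (pl.order c)

lemma a_zero_add (c : ℕ) : pl.a 0 + c ≤ pl.a c := by
  induction c with
  | zero => simp
  | succ c ih => push_cast; linarith [pl.a_succ c]

lemma a_mono : Monotone pl.a := monotone_nat_of_le_succ fun c => by linarith [pl.a_succ c]

lemma b_mono : Monotone pl.b :=
  monotone_nat_of_le_succ fun c => by linarith [pl.order c, pl.a_add_one_le_b (c + 1)]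

lemma b_le_a {c c' : ℕ} (h : c < c') : pl.b c ≤ pl.a c' :=
  (pl.order c).trans (pl.a_mono h)

lemma exists_lt_a (t : ℝ) : ∃ M : ℕ, ∀ c, M ≤ c → t < pl.a c := by
  refine ⟨⌈t - pl.a 0⌉₊ + 1, fun c hc => ?_⟩
  have h1 := Nat.le_ceil (t - pl.a 0)
  have h2 : ((⌈t - pl.a 0⌉₊ + 1 : ℕ) : ℝ) ≤ c := by exact_mod_cast hc
  push_cast at h2
  linarith [pl.a_zero_add c]

lemma exists_le_b (t : ℝ) : ∃ c, t ≤ pl.b c := by
  obtain ⟨M, hM⟩ := pl.exists_lt_a t
  exact ⟨M, by linarith [hM M le_rfl, pl.a_add_one_le_b M]⟩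

open Classical in
/-- The first composite not finished at time `t`. -/
def win (t : ℝ) : ℕ := Nat.find (pl.exists_le_b t)

lemma le_b_win (t : ℝ) : t ≤ pl.b (pl.win t) := Nat.find_spec (pl.exists_le_b t)

lemma b_lt_of_lt_win {t : ℝ} {c : ℕ} (h : c < pl.win t) : pl.b c < t :=
  not_le.1 (Nat.find_min (pl.exists_le_b t) h)

lemma le_a_of_win_lt {t : ℝ} {c : ℕ} (h : pl.win t < c) : t ≤ pl.a c :=
  (pl.le_b_win t).trans (pl.b_le_a h)

lemma exists_idx (n : ℕ) : ∃ c, n < pl.first (c + 1) :=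
  ⟨n, (pl.le_first n).trans_lt (pl.first_lt n)⟩

/-- The composite of slot `n`. -/
def idx (n : ℕ) : ℕ := Nat.find (pl.exists_idx n)

lemma first_idx_le (n : ℕ) : pl.first (pl.idx n) ≤ n := by
  rcases h : pl.idx n with _ | c
  · simp [pl.first_zero]
  · exact not_lt.1 (Nat.find_min (pl.exists_idx n) (h ▸ Nat.lt_succ_self c : c < pl.idx n))

lemma lt_first_idx (n : ℕ) : n < pl.first (pl.idx n + 1) := Nat.find_spec (pl.exists_idx n)

lemma idx_eq {n c : ℕ} (h1 : pl.first c ≤ n) (h2 : n < pl.first (c + 1)) : pl.idx n = c := by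
  refine le_antisymm (Nat.find_le h2) (not_lt.1 fun h => ?_)
  linarith [pl.first_mono.monotone (Nat.succ_le_of_lt h), pl.lt_first_idx n]

lemma slot_idx (n : ℕ) : pl.a (pl.idx n) ≤ pl.pos n ∧ pl.pos n + 1 ≤ pl.b (pl.idx n) :=
  pl.slot_mem _ _ (pl.first_idx_le n) (pl.lt_first_idx n)

lemma idx_of_mem {n c : ℕ} {s : ℝ} (hs : s ∈ Set.Icc (pl.a c) (pl.b c))
    (hn : s - pl.pos n ∈ Set.Ioo (0 : ℝ) 1) : pl.idx n = c := by
  obtain ⟨h1, h2⟩ := pl.slot_idx n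
  rcases lt_trichotomy (pl.idx n) c with h | h | h
  · linarith [pl.b_le_a h, hs.1, hn.2]
  · exact h
  · linarith [pl.b_le_a h, hs.2, hn.1]

/-! ### the designed variable and the correction -/

/-- The increase of the designed variable at composite `c`. -/
def dX (c j : ℕ) : EE d →L[ℝ] V j := pl.X (c + 1) j - pl.X c j

/-- The ramp of composite `c`. -/
def ramp (c : ℕ) (t : ℝ) : ℝ := max 0 (min 1 ((t - pl.a c) / (pl.b c - pl.a c)))

lemma ramp_mem (c : ℕ) (t : ℝ) : 0 ≤ pl.ramp c t ∧ pl.ramp c t ≤ 1 :=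
  ⟨le_max_left _ _, max_le zero_le_one (min_le_left _ _)⟩

lemma ramp_of_le {c : ℕ} {t : ℝ} (h : t ≤ pl.a c) : pl.ramp c t = 0 :=
  max_eq_left (min_le_iff.2 (Or.inr
    (div_nonpos_of_nonpos_of_nonneg (sub_nonpos.2 h) (sub_nonneg.2 (pl.a_lt_b c).le))))

lemma ramp_of_ge {c : ℕ} {t : ℝ} (h : pl.b c ≤ t) : pl.ramp c t = 1 := by
  have : 1 ≤ (t - pl.a c) / (pl.b c - pl.a c) :=
    (one_le_div (sub_pos.2 (pl.a_lt_b c))).2 (by linarith)
  simp [ramp, min_eq_left this]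

lemma continuous_ramp (c : ℕ) : Continuous (pl.ramp c) := by unfold ramp; fun_prop

/-- The designed variable. -/
def xdes (j : ℕ) (t : ℝ) : EE d →L[ℝ] V j := pl.X 0 j + ∑' c, pl.ramp c t • pl.dX c j

/-- The amplitudes of composite `c` only. -/
def mask (c : ℕ) (θ : ℕ → Fin P.n → ℝ) (n : ℕ) : Fin P.n → ℝ :=
  if pl.idx n = c then θ n else 0

/-- The partial jump of composite `c`. -/
def part (θ : ℕ → Fin P.n → ℝ) (U D : (j : ℕ) → ℝ → EE d →L[ℝ] V j) (c j : ℕ) (t : ℝ) :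
    EE d →L[ℝ] V j :=
  ∫ s in (0 : ℝ)..t, (F.Ω j s).comp (forceOp H sh pl.pos (pl.mask c θ) U D j s)

/-- The deviation of the controlled variable inside the composites. -/
def ecor (θ : ℕ → Fin P.n → ℝ) (U D : (j : ℕ) → ℝ → EE d →L[ℝ] V j) (j : ℕ) (t : ℝ) :
    EE d →L[ℝ] V j :=
  ∑' c, (pl.ramp c t • pl.part θ U D c j (pl.b c) - pl.part θ U D c j t)

/-- The response of `u' - P u`. -/
def yv (θ : ℕ → Fin P.n → ℝ) (U D : (j : ℕ) → ℝ → EE d →L[ℝ] V j) (j : ℕ) (t : ℝ) :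
    EE d →L[ℝ] V j :=
  yOp F j (fun s => forceOp H sh pl.pos θ U D j s) t

/-- The response of `u`. -/
def uv (θ : ℕ → Fin P.n → ℝ) (U D : (j : ℕ) → ℝ → EE d →L[ℝ] V j) (j : ℕ) (t : ℝ) :
    EE d →L[ℝ] V j :=
  if j = 0 then ∫ s in (0 : ℝ)..t, pl.yv θ U D j s
  else if j < C.J then (F.Φ j t).comp (pl.ecor θ U D j t - (F.Ω j t).comp (pl.yv θ U D j t))
  else uTwo F j (pl.yv θ U D j) t

/-- The response of `u'`. -/
def dv (θ : ℕ → Fin P.n → ℝ) (U D : (j : ℕ) → ℝ → EE d →L[ℝ] V j) (j : ℕ) (t : ℝ) :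
    EE d →L[ℝ] V j :=
  (F.Pj j t).comp (pl.uv θ U D j t) + pl.yv θ U D j t

/-- The reference modes. -/
def refU (j : ℕ) (t : ℝ) : EE d →L[ℝ] V j := (F.Φ j t).comp (pl.xdes j t)

/-- Their derivatives. -/
def refD (j : ℕ) (t : ℝ) : EE d →L[ℝ] V j := (F.Pj j t).comp (pl.refU j t)

lemma xdes_eq_finset {t : ℝ} {M : ℕ} (hM : ∀ c, M ≤ c → t ≤ pl.a c) (j : ℕ) :
    pl.xdes j t = pl.X 0 j + ∑ c ∈ Finset.range M, pl.ramp c t • pl.dX c j := by
  refine congrArg _ (tsum_eq_sum fun c hc => ?_)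
  ext1 x
  simp [pl.ramp_of_le (hM c (not_lt.1 fun h => hc (Finset.mem_range.2 h)))]

lemma continuous_xdes (j : ℕ) : Continuous (pl.xdes j) := by
  refine continuous_iff_continuousAt.2 fun t => ?_
  obtain ⟨M, hM⟩ := pl.exists_lt_a (t + 1)
  have he : (fun r => pl.xdes j r) =ᶠ[𝓝 t]
      fun r => pl.X 0 j + ∑ c ∈ Finset.range M, pl.ramp c r • pl.dX c j :=
    (eventually_lt_nhds (lt_add_one t)).mono fun r hr =>
      pl.xdes_eq_finset (fun c hc => (hr.trans (hM c hc)).le) j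
  exact ((continuous_const.add (continuous_finsetSum _ fun c _ =>
    (pl.continuous_ramp c).smul continuous_const)).continuousAt).congr he.symm

lemma xdes_eq (j : ℕ) (t : ℝ) :
    pl.xdes j t = pl.X (pl.win t) j + pl.ramp (pl.win t) t • pl.dX (pl.win t) j := by
  rw [pl.xdes_eq_finset (M := pl.win t + 1) (fun c hc => pl.le_a_of_win_lt hc),
    Finset.sum_range_succ, ← add_assoc]
  congr 1
  rw [Finset.sum_congr rfl (g := fun c => pl.X (c + 1) j - pl.X c j) (fun c hc => ?_),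
    Finset.sum_range_sub (fun c => pl.X c j), add_sub_cancel]
  ext1 x
  simp [dX, pl.ramp_of_ge (pl.b_lt_of_lt_win (Finset.mem_range.1 hc)).le]

lemma xdes_window (j : ℕ) {c : ℕ} {t : ℝ} (ht : t ∈ Set.Icc (pl.a c) (pl.b c)) :
    pl.xdes j t = pl.X c j + pl.ramp c t • pl.dX c j := by
  rw [pl.xdes_eq_finset (M := c + 1) (fun i hi => ht.2.trans (pl.b_le_a hi)),
    Finset.sum_range_succ, ← add_assoc]
  congr 1
  rw [Finset.sum_congr rfl (g := fun i => pl.X (i + 1) j - pl.X i j) (fun i hi => ?_),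
    Finset.sum_range_sub (fun i => pl.X i j), add_sub_cancel]
  ext1 x
  simp [dX, pl.ramp_of_ge ((pl.b_le_a (Finset.mem_range.1 hi)).trans ht.1)]

lemma xdes_of_le (j : ℕ) {t : ℝ} (ht : t ≤ pl.a 0) : pl.xdes j t = pl.X 0 j := by
  rw [pl.xdes_eq_finset (M := 0) (fun c _ => ht.trans (pl.a_mono (Nat.zero_le c)))]
  simp

lemma xdes_off {j : ℕ} (hj : j = 0 ∨ C.J ≤ j) (t : ℝ) : pl.xdes j t = 0 := by
  rw [pl.xdes_eq, dX, pl.X_off _ j hj, pl.X_off _ j hj]
  simp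

lemma mask_slot {c n : ℕ} {θ : ℕ → Fin P.n → ℝ} (h : pl.idx n = c) : pl.mask c θ n = θ n :=
  if_pos h

lemma forceOp_mask_off (θ : ℕ → Fin P.n → ℝ) (U D : (j : ℕ) → ℝ → EE d →L[ℝ] V j) {c : ℕ}
    {s : ℝ} (h : s ≤ max (pl.a c) 0 ∨ pl.b c ≤ s) (j : ℕ) :
    forceOp H sh pl.pos (pl.mask c θ) U D j s = 0 := by
  refine forceOp_eq_zero fun n => ?_
  by_cases hi : pl.idx n = c
  · refine Or.inl fun hn => ?_
    obtain ⟨h1, h2⟩ := pl.slot_idx n
    rw [hi] at h1 h2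
    have h3 := le_pos pl.pos_start pl.pos_gap n
    rcases h with h | h
    · rcases le_max_iff.1 h with h | h <;> linarith [hn.1, (n.cast_nonneg : (0 : ℝ) ≤ n)]
    · linarith [hn.2]
  · exact Or.inr (if_neg hi)

lemma forceOp_mask_on (θ : ℕ → Fin P.n → ℝ) (U D : (j : ℕ) → ℝ → EE d →L[ℝ] V j) {c : ℕ}
    {s : ℝ} (hs : s ∈ Set.Icc (pl.a c) (pl.b c)) (j : ℕ) :
    forceOp H sh pl.pos (pl.mask c θ) U D j s = forceOp H sh pl.pos θ U D j s := by
  by_cases hn : ∃ n, s - pl.pos n ∈ Set.Ioo (0 : ℝ) 1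
  · obtain ⟨n, hn⟩ := hn
    rw [forceOp_slot pl.pos_gap hn, forceOp_slot pl.pos_gap hn]
    simp [slotOp, pl.mask_slot (pl.idx_of_mem hs hn)]
  · push Not at hn
    rw [forceOp_eq_zero fun n => Or.inl (hn n), forceOp_eq_zero fun n => Or.inl (hn n)]

lemma part_of_le (θ : ℕ → Fin P.n → ℝ) (U D : (j : ℕ) → ℝ → EE d →L[ℝ] V j) {c : ℕ} {t : ℝ}
    (h : t ≤ max (pl.a c) 0) (j : ℕ) : pl.part θ U D c j t = 0 := by
  have : pl.part θ U D c j t = ∫ _ in (0 : ℝ)..t, (0 : EE d →L[ℝ] V j) :=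
    integral_congr fun s hs => by
      rw [pl.forceOp_mask_off θ U D (Or.inl (hs.2.trans (max_le (le_max_right _ _) h))) j,
        ContinuousLinearMap.comp_zero]
  simpa using this

lemma continuous_Ω_force {j : ℕ} (hj1 : 1 ≤ j) (hj2 : j < C.J) (θ : ℕ → Fin P.n → ℝ)
    {U D : (j : ℕ) → ℝ → EE d →L[ℝ] V j} (hU : ∀ i, Continuous (U i))
    (hD : ∀ i, Continuous (D i)) :
    Continuous fun s => (F.Ω j s).comp (forceOp H sh pl.pos θ U D j s) :=
  (continuous_Ω hj1 hj2).clm_comp (continuous_forceOp pl.pos_start pl.pos_gap θ hU hD j)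

variable {θ : ℕ → Fin P.n → ℝ} {U D : (j : ℕ) → ℝ → EE d →L[ℝ] V j}

lemma part_eq_integral {j : ℕ} (hj1 : 1 ≤ j) (hj2 : j < C.J) (hU : ∀ i, Continuous (U i))
    (hD : ∀ i, Continuous (D i)) {c : ℕ} {t : ℝ} (ht : t ∈ Set.Icc (pl.a c) (pl.b c)) :
    pl.part θ U D c j t = ∫ s in pl.a c..t, (F.Ω j s).comp (forceOp H sh pl.pos θ U D j s) := by
  have hg := pl.continuous_Ω_force hj1 hj2 (pl.mask c θ) hU hD
  have h0 : pl.part θ U D c j (pl.a c) = 0 := pl.part_of_le θ U D (le_max_left _ _) j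
  rw [part] at h0 ⊢
  rw [← integral_add_adjacent_intervals (hg.intervalIntegrable 0 (pl.a c))
    (hg.intervalIntegrable (pl.a c) t), h0, zero_add]
  refine integral_congr fun s hs => ?_
  rw [Set.uIcc_of_le ht.1] at hs
  simp only [pl.forceOp_mask_on θ U D ⟨hs.1, hs.2.trans ht.2⟩ j]

lemma part_of_ge {j : ℕ} (hj1 : 1 ≤ j) (hj2 : j < C.J) (hU : ∀ i, Continuous (U i))
    (hD : ∀ i, Continuous (D i)) {c : ℕ} {t : ℝ} (ht : pl.b c ≤ t) :
    pl.part θ U D c j t = pl.part θ U D c j (pl.b c) := by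
  have hg := pl.continuous_Ω_force hj1 hj2 (pl.mask c θ) hU hD
  have : (∫ s in pl.b c..t, (F.Ω j s).comp (forceOp H sh pl.pos (pl.mask c θ) U D j s)) =
      ∫ _ in pl.b c..t, (0 : EE d →L[ℝ] V j) := integral_congr fun s hs => by
    rw [Set.uIcc_of_le ht] at hs
    rw [pl.forceOp_mask_off θ U D (Or.inr hs.1) j, ContinuousLinearMap.comp_zero]
  rw [part, part, ← integral_add_adjacent_intervals (hg.intervalIntegrable 0 (pl.b c))
    (hg.intervalIntegrable (pl.b c) t), this]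
  simp

lemma part_b {j : ℕ} (hj1 : 1 ≤ j) (hj2 : j < C.J) (hU : ∀ i, Continuous (U i))
    (hD : ∀ i, Continuous (D i)) (c : ℕ) :
    pl.part θ U D c j (pl.b c) = jump F pl.pos θ (pl.a c) (pl.b c) U D j :=
  pl.part_eq_integral hj1 hj2 hU hD ⟨(pl.a_lt_b c).le, le_rfl⟩

lemma ecor_term_zero {j : ℕ} (hj1 : 1 ≤ j) (hj2 : j < C.J) (hU : ∀ i, Continuous (U i))
    (hD : ∀ i, Continuous (D i)) {c : ℕ} {t : ℝ} (h : t ≤ pl.a c ∨ pl.b c ≤ t) :
    pl.ramp c t • pl.part θ U D c j (pl.b c) - pl.part θ U D c j t = 0 := by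
  rcases h with h | h
  · ext1 x
    simp [pl.ramp_of_le h, pl.part_of_le θ U D (h.trans (le_max_left _ _)) j]
  · ext1 x
    simp [pl.ramp_of_ge h, pl.part_of_ge hj1 hj2 hU hD h]

lemma ecor_eq_finset {j : ℕ} (hj1 : 1 ≤ j) (hj2 : j < C.J) (hU : ∀ i, Continuous (U i))
    (hD : ∀ i, Continuous (D i)) {t : ℝ} {M : ℕ} (hM : ∀ c, M ≤ c → t ≤ pl.a c) :
    pl.ecor θ U D j t = ∑ c ∈ Finset.range M,
      (pl.ramp c t • pl.part θ U D c j (pl.b c) - pl.part θ U D c j t) :=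
  tsum_eq_sum fun c hc =>
    pl.ecor_term_zero hj1 hj2 hU hD (Or.inl (hM c (not_lt.1 fun h => hc (Finset.mem_range.2 h))))

lemma ecor_eq {j : ℕ} (hj1 : 1 ≤ j) (hj2 : j < C.J) (hU : ∀ i, Continuous (U i))
    (hD : ∀ i, Continuous (D i)) (t : ℝ) :
    pl.ecor θ U D j t = pl.ramp (pl.win t) t • pl.part θ U D (pl.win t) j (pl.b (pl.win t)) -
      pl.part θ U D (pl.win t) j t := by
  refine tsum_eq_single _ fun c hc => pl.ecor_term_zero hj1 hj2 hU hD ?_
  rcases lt_or_gt_of_ne hc with h | h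
  · exact Or.inr (pl.b_lt_of_lt_win h).le
  · exact Or.inl (pl.le_a_of_win_lt h)

lemma continuous_ecor {j : ℕ} (hj1 : 1 ≤ j) (hj2 : j < C.J) (hU : ∀ i, Continuous (U i))
    (hD : ∀ i, Continuous (D i)) : Continuous (pl.ecor θ U D j) := by
  refine continuous_iff_continuousAt.2 fun t => ?_
  obtain ⟨M, hM⟩ := pl.exists_lt_a (t + 1)
  have he : (fun r => pl.ecor θ U D j r) =ᶠ[𝓝 t] fun r => ∑ c ∈ Finset.range M,
      (pl.ramp c r • pl.part θ U D c j (pl.b c) - pl.part θ U D c j r) :=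
    (eventually_lt_nhds (lt_add_one t)).mono fun r hr =>
      pl.ecor_eq_finset hj1 hj2 hU hD (fun c hc => (hr.trans (hM c hc)).le)
  refine (continuous_finsetSum _ fun c _ => ?_).continuousAt.congr he.symm
  exact ((pl.continuous_ramp c).smul continuous_const).sub
    (continuous_iff_continuousAt.2 fun r => (hasDerivAt_integral
      (pl.continuous_Ω_force hj1 hj2 _ hU hD) 0 r).continuousAt)

lemma continuous_yv (hU : ∀ i, Continuous (U i)) (hD : ∀ i, Continuous (D i)) (j : ℕ) :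
    Continuous (pl.yv θ U D j) :=
  continuous_yOp (continuous_forceOp pl.pos_start pl.pos_gap θ hU hD j)

lemma force_zero (θ : ℕ → Fin P.n → ℝ) (U D : (j : ℕ) → ℝ → EE d →L[ℝ] V j) (j : ℕ) {s : ℝ}
    (hs : s ≤ 1 ∨ s ≤ pl.a 0) : forceOp H sh pl.pos θ U D j s = 0 := by
  refine forceOp_eq_zero fun n => Or.inl fun hn => ?_
  rcases hs with h | h
  · linarith [le_pos pl.pos_start pl.pos_gap n, hn.1, (n.cast_nonneg : (0 : ℝ) ≤ n)]
  · linarith [(pl.slot_idx n).1, pl.a_mono (Nat.zero_le (pl.idx n)), hn.1]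

lemma yv_zero (θ : ℕ → Fin P.n → ℝ) (U D : (j : ℕ) → ℝ → EE d →L[ℝ] V j) (j : ℕ) {t : ℝ}
    (ht : t ≤ 1 ∨ t ≤ pl.a 0) : pl.yv θ U D j t = 0 := by
  rcases le_total (pl.a 0) 1 with h | h
  · exact yOp_eq_zero (a := 1) (fun s hs => pl.force_zero θ U D j (Or.inl hs))
      (ht.elim id (fun h' => h'.trans h)) zero_le_one
  · exact yOp_eq_zero (a := pl.a 0) (fun s hs => pl.force_zero θ U D j (Or.inr hs))
      (ht.elim (fun h' => h'.trans h) id) (zero_le_one.trans h)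

end Plan

end

end Vale.Agent.P225.FP
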